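import Mathlib

/-!
# Route 2 of row 341, module B1: the scalar integral `-log y = ∫_0^∞ [1/(y+s) - 1/(1+s)] ds`

Only Mathlib is used.
-/

set_option autoImplicit false

open MeasureTheory Filter Topology Set

namespace Crest.Agent.GAD.Trial

/-- The antiderivative `s ↦ log (y + s) - log (1 + s)` of `s ↦ 1/(y+s) - 1/(1+s)`. -/
theorem hasDerivAt_log_add_sub_log_add {y s : ℝ} (hy : 0 < y) (hs : 0 ≤ s) :
    HasDerivAt (fun t : ℝ => Real.log (y + t) - Real.log (1 + t))
      (1 / (y + s) - 1 / (1 + s)) s := by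
  have h1 : HasDerivAt (fun t : ℝ => y + t) 1 s := by
    simpa using (hasDerivAt_id s).const_add y
  have h2 : HasDerivAt (fun t : ℝ => 1 + t) 1 s := by
    simpa using (hasDerivAt_id s).const_add (1 : ℝ)
  have hys : y + s ≠ 0 := by positivity
  have h1s : (1 : ℝ) + s ≠ 0 := by positivity
  have h3 := (h1.log hys).sub (h2.log h1s)
  have h4 : (fun t : ℝ => Real.log (y + t) - Real.log (1 + t))
      = (fun t : ℝ => Real.log (y + t)) - fun t : ℝ => Real.log (1 + t) := rfl
  rw [h4]
  convert h3 using 1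

/-- `log (y + s) - log (1 + s) → 0` as `s → ∞`. -/
theorem tendsto_log_add_sub_log_add (y : ℝ) :
    Tendsto (fun t : ℝ => Real.log (y + t) - Real.log (1 + t)) atTop (𝓝 0) := by
  have h1 : Tendsto (fun t : ℝ => 1 + (y - 1) / (1 + t)) atTop (𝓝 (1 + 0)) := by
    refine tendsto_const_nhds.add (tendsto_const_nhds.div_atTop ?_)
    exact tendsto_atTop_add_const_left atTop (1 : ℝ) tendsto_id
  rw [add_zero] at h1
  have h2 : Tendsto (fun t : ℝ => Real.log (1 + (y - 1) / (1 + t))) atTop (𝓝 (Real.log 1)) :=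
    (Real.continuousAt_log one_ne_zero).tendsto.comp h1
  rw [Real.log_one] at h2
  refine h2.congr' ?_
  filter_upwards [eventually_gt_atTop (0 : ℝ), eventually_gt_atTop (-y)] with t ht hty
  have h1t : (1 : ℝ) + t ≠ 0 := by positivity
  have hyt : y + t ≠ 0 := by linarith
  have h3 : 1 + (y - 1) / (1 + t) = (y + t) / (1 + t) := by
    field_simp
    ring
  rw [h3, Real.log_div hyt h1t]

theorem continuousWithinAt_log_add_sub_log_add {y : ℝ} (hy : 0 < y) :
    ContinuousWithinAt (fun t : ℝ => Real.log (y + t) - Real.log (1 + t)) (Ici 0) 0 :=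
  (hasDerivAt_log_add_sub_log_add hy le_rfl).continuousAt.continuousWithinAt

/-- **B1, integrability.** -/
theorem integrableOn_inv_sub_inv {y : ℝ} (hy : 0 < y) :
    IntegrableOn (fun s : ℝ => 1 / (y + s) - 1 / (1 + s)) (Ioi 0) := by
  rcases le_total y 1 with hy1 | hy1
  · -- the integrand is nonnegative
    refine integrableOn_Ioi_deriv_of_nonneg (continuousWithinAt_log_add_sub_log_add hy)
      (fun s hs => hasDerivAt_log_add_sub_log_add hy (le_of_lt hs)) (fun s hs => ?_)
      (tendsto_log_add_sub_log_add y)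
    have hs0 : (0 : ℝ) < s := hs
    have h1 : (0 : ℝ) < y + s := by positivity
    have h2 : (0 : ℝ) < 1 + s := by positivity
    rw [sub_nonneg]
    exact one_div_le_one_div_of_le h1 (by linarith)
  · -- the integrand is nonpositive
    refine integrableOn_Ioi_deriv_of_nonpos (continuousWithinAt_log_add_sub_log_add hy)
      (fun s hs => hasDerivAt_log_add_sub_log_add hy (le_of_lt hs)) (fun s hs => ?_)
      (tendsto_log_add_sub_log_add y)
    have hs0 : (0 : ℝ) < s := hs
    have h1 : (0 : ℝ) < y + s := by positivity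
    have h2 : (0 : ℝ) < 1 + s := by positivity
    rw [sub_nonpos]
    exact one_div_le_one_div_of_le h2 (by linarith)

/-- **B1, value.** `∫_0^∞ [1/(y+s) - 1/(1+s)] ds = -log y` for `y > 0`. -/
theorem integral_inv_sub_inv {y : ℝ} (hy : 0 < y) :
    (∫ s in Ioi (0 : ℝ), (1 / (y + s) - 1 / (1 + s))) = -Real.log y := by
  have h := integral_Ioi_of_hasDerivAt_of_tendsto (continuousWithinAt_log_add_sub_log_add hy)
    (fun s hs => hasDerivAt_log_add_sub_log_add hy (le_of_lt hs))
    (integrableOn_inv_sub_inv hy) (tendsto_log_add_sub_log_add y)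
  rw [h]
  simp

end Crest.Agent.GAD.Trial
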