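import Mathlib
import Crest.Agent.GAD.Trial.LogInt

/-!
# ROUTE 2, module B1 (finite sums): `∫₀^∞ (∑ c_i/(μ_i+s) - (∑ c_i)/(1+s)) ds = -∑ c_i log μ_i`

(helper98; row 341 lane B.)  On top of `Trial/LogInt.lean` (helper61).
-/

set_option autoImplicit false

open MeasureTheory Set Filter Topology

namespace Crest.Agent.GAD.Trial

theorem sum_resolvent_eq {I : Type*} [Fintype I] (c mu : I → ℝ) :
    (fun s : ℝ => ∑ i, c i / (mu i + s) - (∑ i, c i) / (1 + s))
      = fun s : ℝ => ∑ i, c i * (1 / (mu i + s) - 1 / (1 + s)) := by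
  funext s
  rw [Finset.sum_div, ← Finset.sum_sub_distrib]
  apply Finset.sum_congr rfl
  intro i _
  ring

/-- Finite-sum form: integrability of `R(s) - c/(1+s)`, `R(s) = ∑ c_i/(μ_i+s)`, `c = ∑ c_i`. -/
theorem integrableOn_sum_resolvent {I : Type*} [Fintype I] (c mu : I → ℝ) (hmu : ∀ i, 0 < mu i) :
    IntegrableOn (fun s : ℝ => ∑ i, c i / (mu i + s) - (∑ i, c i) / (1 + s)) (Ioi 0) := by
  rw [sum_resolvent_eq]
  exact integrable_finsetSum _ fun i _ => (integrableOn_inv_sub_inv (hmu i)).const_mul (c i)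

/-- Finite-sum form: `∫₀^∞ (∑ c_i/(μ_i+s) - (∑ c_i)/(1+s)) ds = -∑ c_i log μ_i`. -/
theorem integral_sum_resolvent {I : Type*} [Fintype I] (c mu : I → ℝ) (hmu : ∀ i, 0 < mu i) :
    (∫ s in Ioi (0 : ℝ), (∑ i, c i / (mu i + s) - (∑ i, c i) / (1 + s)))
      = -∑ i, c i * Real.log (mu i) := by
  rw [sum_resolvent_eq]
  rw [integral_finsetSum _ fun i _ => (integrableOn_inv_sub_inv (hmu i)).const_mul (c i)]
  rw [← Finset.sum_neg_distrib]
  apply Finset.sum_congr rfl
  intro i _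
  rw [integral_const_mul, integral_inv_sub_inv (hmu i)]
  ring

theorem sum_resolvent_congr {I : Type*} [Fintype I] [DecidableEq I] (c mu : I → ℝ) :
    (fun s : ℝ => ∑ i, c i / (mu i + s) - (∑ i, c i) / (1 + s))
      = fun s : ℝ => ∑ i, c i / ((if c i = 0 then 1 else mu i) + s) - (∑ i, c i) / (1 + s) := by
  funext s
  congr 1
  apply Finset.sum_congr rfl
  intro i _
  by_cases hc : c i = 0
  · simp [hc]
  · simp [hc]

/-- Variant where `μ_i > 0` is only required for the indices with `c_i ≠ 0`. -/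
theorem integrableOn_sum_resolvent' {I : Type*} [Fintype I] (c mu : I → ℝ)
    (hmu : ∀ i, c i ≠ 0 → 0 < mu i) :
    IntegrableOn (fun s : ℝ => ∑ i, c i / (mu i + s) - (∑ i, c i) / (1 + s)) (Ioi 0) := by
  classical
  rw [sum_resolvent_congr]
  refine integrableOn_sum_resolvent c _ fun i => ?_
  by_cases hc : c i = 0
  · simp [hc]
  · simpa [hc] using hmu i hc

theorem integral_sum_resolvent' {I : Type*} [Fintype I] (c mu : I → ℝ)
    (hmu : ∀ i, c i ≠ 0 → 0 < mu i) :
    (∫ s in Ioi (0 : ℝ), (∑ i, c i / (mu i + s) - (∑ i, c i) / (1 + s)))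
      = -∑ i, c i * Real.log (mu i) := by
  classical
  rw [sum_resolvent_congr, integral_sum_resolvent c _ (fun i => by
    by_cases hc : c i = 0
    · simp [hc]
    · simpa [hc] using hmu i hc)]
  congr 1
  apply Finset.sum_congr rfl
  intro i _
  by_cases hc : c i = 0
  · simp [hc]
  · simp [hc]

/-- Monotone comparison: a pointwise minorant `V ≤ R` on `(0, ∞)` with `V - c/(1+s)` integrable
gives `∫₀^∞ (V - c/(1+s)) ≤ -∑ c_i log μ_i`.  (The step `B1 + B2 ⇒ (DER2)` of route 2.) -/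
theorem integral_le_neg_sum_log {I : Type*} [Fintype I] (c mu : I → ℝ)
    (hmu : ∀ i, c i ≠ 0 → 0 < mu i) (V : ℝ → ℝ)
    (hV : ∀ s : ℝ, 0 < s → V s ≤ ∑ i, c i / (mu i + s))
    (hVint : IntegrableOn (fun s : ℝ => V s - (∑ i, c i) / (1 + s)) (Ioi 0)) :
    (∫ s in Ioi (0 : ℝ), (V s - (∑ i, c i) / (1 + s))) ≤ -∑ i, c i * Real.log (mu i) := by
  rw [← integral_sum_resolvent' c mu hmu]
  refine setIntegral_mono_on hVint (integrableOn_sum_resolvent' c mu hmu) measurableSet_Ioi ?_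
  intro s hs
  have := hV s hs
  linarith

end Crest.Agent.GAD.Trial
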