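import Mathlib

/-!
Route 2 for row 341 (trial-function proof of (DER2)): the scalar side.

For `m = v vᵀ + diag(w0, w1)`, `v = (√x, √u)`:
* `Dl t = det (m + t)`,
* `(aF t, bF t) = (m + t)⁻¹ v`,
* `rF t = vᵀ (m + t)⁻¹ v`,
* `FaF = 2 √x a - (x + t) a²`, `FbF = 2 √u b - (u + t) b²`.
-/

namespace Crest.Agent.GAD.Trial

/-- `det (m + t)` for `m = v vᵀ + diag (w0, w1)`. -/
noncomputable def Dl (x u w0 w1 t : ℝ) : ℝ := (x + w0 + t) * (u + w1 + t) - x * u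

/-- First component of `(m + t)⁻¹ v`. -/
noncomputable def aF (x u w0 w1 t : ℝ) : ℝ := Real.sqrt x * (w1 + t) / Dl x u w0 w1 t

/-- Second component of `(m + t)⁻¹ v`. -/
noncomputable def bF (x u w0 w1 t : ℝ) : ℝ := Real.sqrt u * (w0 + t) / Dl x u w0 w1 t

/-- `vᵀ (m + t)⁻¹ v`. -/
noncomputable def rF (x u w0 w1 t : ℝ) : ℝ := (x * (w1 + t) + u * (w0 + t)) / Dl x u w0 w1 t

noncomputable def FaF (x u w0 w1 t : ℝ) : ℝ :=
  2 * Real.sqrt x * aF x u w0 w1 t - (x + t) * aF x u w0 w1 t ^ 2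

noncomputable def FbF (x u w0 w1 t : ℝ) : ℝ :=
  2 * Real.sqrt u * bF x u w0 w1 t - (u + t) * bF x u w0 w1 t ^ 2

theorem Dl_eq (x u w0 w1 t : ℝ) :
    Dl x u w0 w1 t = (w0 + t) * (w1 + t) + x * (w1 + t) + u * (w0 + t) := by
  unfold Dl; ring

theorem Dl_symm (x u w0 w1 t : ℝ) : Dl u x w1 w0 t = Dl x u w0 w1 t := by
  unfold Dl; ring

theorem Dl_pos {x u w0 w1 t : ℝ} (hx : 0 ≤ x) (hu : 0 ≤ u) (hw0 : 0 < w0) (hw1 : 0 < w1)
    (ht : 0 ≤ t) : 0 < Dl x u w0 w1 t := by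
  rw [Dl_eq]
  have h1 : 0 < (w0 + t) * (w1 + t) := by positivity
  have h2 : 0 ≤ x * (w1 + t) := by positivity
  have h3 : 0 ≤ u * (w0 + t) := by positivity
  linarith

theorem Dl_ge {x u w0 w1 t : ℝ} (hx : 0 ≤ x) (hu : 0 ≤ u) (hw0 : 0 < w0) (hw1 : 0 < w1)
    (ht : 0 ≤ t) : (w0 + t) * (w1 + t) ≤ Dl x u w0 w1 t := by
  rw [Dl_eq]
  have h2 : 0 ≤ x * (w1 + t) := by positivity
  have h3 : 0 ≤ u * (w0 + t) := by positivity
  linarith

theorem aF_symm (x u w0 w1 t : ℝ) : aF x u w0 w1 t = bF u x w1 w0 t := by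
  unfold aF bF; rw [Dl_symm]

theorem bF_symm (x u w0 w1 t : ℝ) : bF x u w0 w1 t = aF u x w1 w0 t := by
  unfold aF bF; rw [Dl_symm]

theorem rF_symm (x u w0 w1 t : ℝ) : rF x u w0 w1 t = rF u x w1 w0 t := by
  unfold rF; rw [Dl_symm]; ring

theorem FaF_symm (x u w0 w1 t : ℝ) : FaF x u w0 w1 t = FbF u x w1 w0 t := by
  unfold FaF FbF; rw [aF_symm]

theorem FbF_symm (x u w0 w1 t : ℝ) : FbF x u w0 w1 t = FaF u x w1 w0 t := by
  unfold FaF FbF; rw [bF_symm]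

theorem aF_nonneg {x u w0 w1 t : ℝ} (hx : 0 ≤ x) (hu : 0 ≤ u) (hw0 : 0 < w0) (hw1 : 0 < w1)
    (ht : 0 ≤ t) : 0 ≤ aF x u w0 w1 t := by
  unfold aF
  have := Dl_pos hx hu hw0 hw1 ht
  positivity

theorem bF_nonneg {x u w0 w1 t : ℝ} (hx : 0 ≤ x) (hu : 0 ≤ u) (hw0 : 0 < w0) (hw1 : 0 < w1)
    (ht : 0 ≤ t) : 0 ≤ bF x u w0 w1 t := by
  rw [bF_symm]; exact aF_nonneg hu hx hw1 hw0 ht

/-- `rF = √x a + √u b`. -/
theorem rF_eq_lin {x u : ℝ} (w0 w1 t : ℝ) (hx : 0 ≤ x) (hu : 0 ≤ u) :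
    rF x u w0 w1 t = Real.sqrt x * aF x u w0 w1 t + Real.sqrt u * bF x u w0 w1 t := by
  unfold rF aF bF
  have e1 : Real.sqrt x * (Real.sqrt x * (w1 + t) / Dl x u w0 w1 t)
      = x * (w1 + t) / Dl x u w0 w1 t := by
    rw [← mul_div_assoc, ← mul_assoc, Real.mul_self_sqrt hx]
  have e2 : Real.sqrt u * (Real.sqrt u * (w0 + t) / Dl x u w0 w1 t)
      = u * (w0 + t) / Dl x u w0 w1 t := by
    rw [← mul_div_assoc, ← mul_assoc, Real.mul_self_sqrt hu]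
  rw [e1, e2, add_div]

/-- The resolvent identity `r = 2 v·θ - θᵀ (m + t) θ` in expanded form. -/
theorem rF_eq {x u w0 w1 t : ℝ} (hx : 0 ≤ x) (hu : 0 ≤ u) (hD : Dl x u w0 w1 t ≠ 0) :
    rF x u w0 w1 t = FaF x u w0 w1 t + FbF x u w0 w1 t - w0 * aF x u w0 w1 t ^ 2
      - w1 * bF x u w0 w1 t ^ 2
      - 2 * (Real.sqrt x * Real.sqrt u) * (aF x u w0 w1 t * bF x u w0 w1 t) := by
  have hsx : Real.sqrt x * Real.sqrt x = x := Real.mul_self_sqrt hx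
  have hsu : Real.sqrt u * Real.sqrt u = u := Real.mul_self_sqrt hu
  unfold rF FaF FbF aF bF
  field_simp
  have hD' : Dl x u w0 w1 t = (w0 + t) * (w1 + t) + x * (w1 + t) + u * (w0 + t) := Dl_eq _ _ _ _ _
  generalize Real.sqrt x = sx at *
  generalize Real.sqrt u = su at *
  generalize Dl x u w0 w1 t = D at *
  subst hD'
  have hx2 : sx ^ 2 = x := by rw [sq]; exact hsx
  have hu2 : su ^ 2 = u := by rw [sq]; exact hsu
  subst hx2; subst hu2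
  ring

/-! ### The pointwise "Milne" inequality (B6) -/

theorem two_le_div_add_div {a b : ℝ} (ha : 0 < a) (hb : 0 < b) : 2 ≤ a / b + b / a := by
  have h : a / b + b / a - 2 = (a - b) ^ 2 / (a * b) := by
    field_simp; ring
  have h2 : 0 ≤ (a - b) ^ 2 / (a * b) := by positivity
  linarith

/-- Three-term Cauchy–Schwarz: `(∑ n)² ≤ (∑ n z) (∑ n / z)`. -/
theorem cs3 {n1 n2 n3 z1 z2 z3 : ℝ} (h1 : 0 ≤ n1) (h2 : 0 ≤ n2) (h3 : 0 ≤ n3)
    (hz1 : 0 < z1) (hz2 : 0 < z2) (hz3 : 0 < z3) :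
    (n1 + n2 + n3) ^ 2 ≤ (n1 * z1 + n2 * z2 + n3 * z3) * (n1 / z1 + n2 / z2 + n3 / z3) := by
  have e : (n1 * z1 + n2 * z2 + n3 * z3) * (n1 / z1 + n2 / z2 + n3 / z3)
      = n1 ^ 2 + n2 ^ 2 + n3 ^ 2 + n1 * n2 * (z1 / z2 + z2 / z1)
        + n1 * n3 * (z1 / z3 + z3 / z1) + n2 * n3 * (z2 / z3 + z3 / z2) := by
    field_simp; ring
  rw [e]
  have k12 := two_le_div_add_div hz1 hz2
  have k13 := two_le_div_add_div hz1 hz3
  have k23 := two_le_div_add_div hz2 hz3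
  have m12 : n1 * n2 * 2 ≤ n1 * n2 * (z1 / z2 + z2 / z1) :=
    mul_le_mul_of_nonneg_left k12 (mul_nonneg h1 h2)
  have m13 : n1 * n3 * 2 ≤ n1 * n3 * (z1 / z3 + z3 / z1) :=
    mul_le_mul_of_nonneg_left k13 (mul_nonneg h1 h3)
  have m23 : n2 * n3 * 2 ≤ n2 * n3 * (z2 / z3 + z3 / z2) :=
    mul_le_mul_of_nonneg_left k23 (mul_nonneg h2 h3)
  nlinarith [m12, m13, m23]

/-- The constant `N(t) = √u / b(t)` (for `w1 ≤ w0`), written as a sum of three nonnegative terms. -/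
noncomputable def Nn (x u w0 w1 t : ℝ) : ℝ :=
  t + (u + w1 + x * w1 / w0) + x * (w0 - w1) / w0 * t / (t + w0)

theorem Dl_eq_cf {x u w0 w1 s : ℝ} (hw0 : 0 < w0) :
    Dl x u w0 w1 s = (w0 + s) * (s + (u + w1 + x * w1 / w0)) + x * (w0 - w1) / w0 * s := by
  unfold Dl; field_simp; ring

theorem bF_eq_div_Nn {x u w0 w1 t : ℝ} (hw0 : 0 < w0) (ht : 0 < t) :
    bF x u w0 w1 t * Nn x u w0 w1 t = Real.sqrt u * (Dl x u w0 w1 t / Dl x u w0 w1 t) := by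
  have h : Nn x u w0 w1 t = Dl x u w0 w1 t / (w0 + t) := by
    rw [Dl_eq_cf (x := x) (u := u) (w1 := w1) (s := t) hw0]
    unfold Nn
    have : (w0 + t) ≠ 0 := by positivity
    have : (t + w0) ≠ 0 := by positivity
    field_simp; ring
  rw [h]
  unfold bF
  have : (w0 + t) ≠ 0 := by positivity
  field_simp

theorem Nn_pos {x u w0 w1 t : ℝ} (hx : 0 ≤ x) (hu : 0 ≤ u) (hw0 : 0 < w0) (hw1 : 0 ≤ w1)
    (h01 : w1 ≤ w0) (ht : 0 < t) : 0 < Nn x u w0 w1 t := by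
  unfold Nn
  have h1 : 0 ≤ u + w1 + x * w1 / w0 := by positivity
  have h2 : 0 ≤ x * (w0 - w1) / w0 * t / (t + w0) := by
    have : 0 ≤ w0 - w1 := by linarith
    positivity
  linarith

/-- `b(t) = √u / N(t)`. -/
theorem bF_eq_sqrt_div_Nn {x u w0 w1 t : ℝ} (hx : 0 ≤ x) (hu : 0 ≤ u) (hw0 : 0 < w0)
    (hw1 : 0 < w1) (h01 : w1 ≤ w0) (ht : 0 < t) :
    bF x u w0 w1 t = Real.sqrt u / Nn x u w0 w1 t := by
  have hN := Nn_pos hx hu hw0 hw1.le h01 ht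
  have hD := Dl_pos hx hu hw0 hw1 ht.le
  have h := bF_eq_div_Nn (x := x) (u := u) (w1 := w1) hw0 ht
  rw [div_self hD.ne', mul_one] at h
  rw [eq_div_iff hN.ne']; exact h

/-- Tangent-plane bound for the perspective of `b`: for `σ, τ > 0`,
`σ b(t σ / τ) ≤ (√u / N²) (A σ + B τ)` with `A + B = N`. -/
theorem bF_persp_le {x u w0 w1 : ℝ} (hx : 0 ≤ x) (hu : 0 ≤ u) (hw0 : 0 < w0) (hw1 : 0 < w1)
    (h01 : w1 ≤ w0) {t σ τ : ℝ} (ht : 0 < t) (hσ : 0 < σ) (hτ : 0 < τ) :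
    σ * bF x u w0 w1 (t * σ / τ) ≤ Real.sqrt u / Nn x u w0 w1 t ^ 2 *
      (((u + w1 + x * w1 / w0) + x * (w0 - w1) / w0 * t / (t + w0) * (t / (t + w0))) * σ
        + (t + x * (w0 - w1) / w0 * t / (t + w0) * (w0 / (t + w0))) * τ) := by
  set c3 : ℝ := u + w1 + x * w1 / w0 with hc3
  set n3 : ℝ := x * (w0 - w1) / w0 * t / (t + w0) with hn3
  have hc3' : 0 ≤ c3 := by rw [hc3]; positivity
  have hn3' : 0 ≤ n3 := by
    rw [hn3]
    have : 0 ≤ w0 - w1 := by linarith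
    positivity
  have hN : Nn x u w0 w1 t = t + c3 + n3 := rfl
  have hNpos := Nn_pos hx hu hw0 hw1.le h01 ht
  set s : ℝ := t * σ / τ with hs
  have hspos : 0 < s := by rw [hs]; positivity
  set r3 : ℝ := (t * σ + w0 * τ) / (t + w0) with hr3
  have hr3pos : 0 < r3 := by rw [hr3]; positivity
  have hDs := Dl_pos hx hu hw0 hw1 hspos.le
  -- the denominator
  set D : ℝ := t / τ + c3 / σ + n3 / r3 with hD
  have hDpos : 0 < D := by
    have : 0 < t / τ := by positivity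
    have : 0 ≤ c3 / σ := by positivity
    have : 0 ≤ n3 / r3 := by positivity
    rw [hD]; linarith
  have hDl : Dl x u w0 w1 s = σ * (w0 + s) * D := by
    rw [Dl_eq_cf (x := x) (u := u) (w1 := w1) (s := s) hw0, hD, hn3, hr3, hs, hc3]
    have : (t + w0) ≠ 0 := by positivity
    have : (t * σ + w0 * τ) ≠ 0 := by positivity
    field_simp
    ring
  have hb : σ * bF x u w0 w1 s = Real.sqrt u / D := by
    unfold bF
    rw [hDl]
    have : (w0 + s) ≠ 0 := by positivity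
    field_simp
  rw [hb]
  have hcs := cs3 (z1 := τ) (z2 := σ) (z3 := r3) ht.le hc3' hn3' hτ hσ hr3pos
  rw [← hN] at hcs
  have hL : ((c3 + n3 * (t / (t + w0))) * σ + (t + n3 * (w0 / (t + w0))) * τ)
      = t * τ + c3 * σ + n3 * r3 := by
    rw [hr3]
    have : (t + w0) ≠ 0 := by positivity
    field_simp; ring
  rw [hL]
  have hsq : 0 ≤ Real.sqrt u := Real.sqrt_nonneg u
  have hLpos : 0 < t * τ + c3 * σ + n3 * r3 := by
    have : 0 < t * τ := by positivity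
    have : 0 ≤ c3 * σ := by positivity
    have : 0 ≤ n3 * r3 := by positivity
    linarith
  rw [div_mul_eq_mul_div, div_le_div_iff₀ hDpos (by positivity)]
  have : Nn x u w0 w1 t ^ 2 ≤ (t * τ + c3 * σ + n3 * r3) * D := hcs
  calc Real.sqrt u * Nn x u w0 w1 t ^ 2 ≤ Real.sqrt u * ((t * τ + c3 * σ + n3 * r3) * D) :=
        mul_le_mul_of_nonneg_left this hsq
    _ = Real.sqrt u * (t * τ + c3 * σ + n3 * r3) * D := by ring

/-- **B6 (Milne-type inequality), case `w1 ≤ w0`.** -/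
theorem milne_b {J K : Type*} [Fintype J] [Fintype K] {x u w0 w1 : ℝ} (hx : 0 ≤ x) (hu : 0 ≤ u)
    (hw0 : 0 < w0) (hw1 : 0 < w1) (h01 : w1 ≤ w0)
    (σ : J → ℝ) (τ : K → ℝ) (κ : J → K → ℝ) (hσ : ∀ j, 0 ≤ σ j) (hτ : ∀ k, 0 ≤ τ k)
    (hσ1 : ∑ j, σ j ≤ 1) (hτ1 : ∑ k, τ k ≤ 1)
    (hκ : ∀ j k, 0 ≤ κ j k) (hrow : ∀ j, ∑ k, κ j k ≤ 1) (hcol : ∀ k, ∑ j, κ j k ≤ 1)
    {t : ℝ} (ht : 0 < t) :
    ∑ j, ∑ k, κ j k * (σ j * (if τ k = 0 then 0 else bF x u w0 w1 (t * σ j / τ k)))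
      ≤ bF x u w0 w1 t := by
  set n3 : ℝ := x * (w0 - w1) / w0 * t / (t + w0) with hn3
  set A : ℝ := (u + w1 + x * w1 / w0) + n3 * (t / (t + w0)) with hA
  set B : ℝ := t + n3 * (w0 / (t + w0)) with hB
  have hn3' : 0 ≤ n3 := by
    rw [hn3]
    have : 0 ≤ w0 - w1 := by linarith
    positivity
  have hA' : 0 ≤ A := by rw [hA]; positivity
  have hB' : 0 ≤ B := by rw [hB]; positivity
  have hNpos := Nn_pos hx hu hw0 hw1.le h01 ht
  have hAB : A + B = Nn x u w0 w1 t := by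
    rw [hA, hB]; unfold Nn
    have : (t + w0) ≠ 0 := by positivity
    rw [← hn3]; field_simp; ring
  set C : ℝ := Real.sqrt u / Nn x u w0 w1 t ^ 2 with hC
  have hC' : 0 ≤ C := by rw [hC]; positivity
  have hterm : ∀ j k, κ j k * (σ j * (if τ k = 0 then 0 else bF x u w0 w1 (t * σ j / τ k)))
      ≤ κ j k * (C * (A * σ j + B * τ k)) := by
    intro j k
    apply mul_le_mul_of_nonneg_left _ (hκ j k)
    have hrhs : 0 ≤ C * (A * σ j + B * τ k) :=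
      mul_nonneg hC' (add_nonneg (mul_nonneg hA' (hσ j)) (mul_nonneg hB' (hτ k)))
    by_cases hτk : τ k = 0
    · simp only [hτk, if_true, mul_zero]; simpa [hτk] using hrhs
    · rw [if_neg hτk]
      rcases (hσ j).eq_or_lt with hσj | hσj
      · rw [← hσj, zero_mul]; rw [← hσj] at hrhs; exact hrhs
      · have hτk' : 0 < τ k := lt_of_le_of_ne (hτ k) (Ne.symm hτk)
        exact bF_persp_le hx hu hw0 hw1 h01 ht hσj hτk'
  calc ∑ j, ∑ k, κ j k * (σ j * (if τ k = 0 then 0 else bF x u w0 w1 (t * σ j / τ k)))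
      ≤ ∑ j, ∑ k, κ j k * (C * (A * σ j + B * τ k)) :=
        Finset.sum_le_sum fun j _ => Finset.sum_le_sum fun k _ => hterm j k
    _ = C * (A * ∑ j, σ j * ∑ k, κ j k + B * ∑ k, τ k * ∑ j, κ j k) := by
        have e1 : ∑ j, ∑ k, κ j k * (C * (A * σ j + B * τ k))
            = C * A * ∑ j, ∑ k, σ j * κ j k + C * B * ∑ j, ∑ k, τ k * κ j k := by
          rw [Finset.mul_sum, Finset.mul_sum, ← Finset.sum_add_distrib]
          apply Finset.sum_congr rfl; intro j _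
          rw [Finset.mul_sum, Finset.mul_sum, ← Finset.sum_add_distrib]
          apply Finset.sum_congr rfl; intro k _
          ring
        rw [e1, Finset.sum_comm (f := fun j k => τ k * κ j k)]
        simp only [← Finset.mul_sum]
        ring
    _ ≤ C * (A * ∑ j, σ j + B * ∑ k, τ k) := by
        apply mul_le_mul_of_nonneg_left _ hC'
        have h1 : ∑ j, σ j * ∑ k, κ j k ≤ ∑ j, σ j :=
          Finset.sum_le_sum fun j _ => by
            have := mul_le_mul_of_nonneg_left (hrow j) (hσ j)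
            simpa using this
        have h2 : ∑ k, τ k * ∑ j, κ j k ≤ ∑ k, τ k :=
          Finset.sum_le_sum fun k _ => by
            have := mul_le_mul_of_nonneg_left (hcol k) (hτ k)
            simpa using this
        exact add_le_add (mul_le_mul_of_nonneg_left h1 hA') (mul_le_mul_of_nonneg_left h2 hB')
    _ ≤ C * (A + B) := by
        apply mul_le_mul_of_nonneg_left _ hC'
        have h1 := mul_le_mul_of_nonneg_left hσ1 hA'
        have h2 := mul_le_mul_of_nonneg_left hτ1 hB'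
        linarith
    _ = bF x u w0 w1 t := by
        rw [hAB, hC, bF_eq_sqrt_div_Nn hx hu hw0 hw1 h01 ht]
        field_simp

/-- **B6, case `w0 ≤ w1`** (by the symmetry `x ↔ u`, `w0 ↔ w1`, `a ↔ b`). -/
theorem milne_a {J K : Type*} [Fintype J] [Fintype K] {x u w0 w1 : ℝ} (hx : 0 ≤ x) (hu : 0 ≤ u)
    (hw0 : 0 < w0) (hw1 : 0 < w1) (h01 : w0 ≤ w1)
    (σ : J → ℝ) (τ : K → ℝ) (κ : J → K → ℝ) (hσ : ∀ j, 0 ≤ σ j) (hτ : ∀ k, 0 ≤ τ k)
    (hσ1 : ∑ j, σ j ≤ 1) (hτ1 : ∑ k, τ k ≤ 1)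
    (hκ : ∀ j k, 0 ≤ κ j k) (hrow : ∀ j, ∑ k, κ j k ≤ 1) (hcol : ∀ k, ∑ j, κ j k ≤ 1)
    {t : ℝ} (ht : 0 < t) :
    ∑ j, ∑ k, κ j k * (τ k * (if σ j = 0 then 0 else aF x u w0 w1 (t * τ k / σ j)))
      ≤ aF x u w0 w1 t := by
  have h := milne_b (J := K) (K := J) hu hx hw1 hw0 h01 τ σ (fun k j => κ j k) hτ hσ hτ1 hσ1
    (fun k j => hκ j k) hcol hrow ht
  rw [Finset.sum_comm] at h
  simpa only [aF_symm] using h

/-! ### The trial functions and the trial value (B4) -/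

/-- `a` at the rescaled spectral parameter `s x / ξ` (zero for `ξ = 0`). -/
noncomputable def aS (x u w0 w1 ξ s : ℝ) : ℝ := if ξ = 0 then 0 else aF x u w0 w1 (s * x / ξ)

/-- `b` at the rescaled spectral parameter `s u / υ` (zero for `υ = 0`). -/
noncomputable def bS (x u w0 w1 υ s : ℝ) : ℝ := if υ = 0 then 0 else bF x u w0 w1 (s * u / υ)

/-- The `j`-th diagonal piece of the trial value. -/
noncomputable def GA (x u w0 w1 ξ P s : ℝ) : ℝ :=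
  if ξ = 0 then 0
  else FaF x u w0 w1 (s * x / ξ) - P * x / ξ * aF x u w0 w1 (s * x / ξ) ^ 2

/-- The `k`-th diagonal piece of the trial value. -/
noncomputable def GB (x u w0 w1 υ Q s : ℝ) : ℝ :=
  if υ = 0 then 0
  else FbF x u w0 w1 (s * u / υ) - Q * u / υ * bF x u w0 w1 (s * u / υ) ^ 2

/-- The trial coefficient `α_j(s)`; it vanishes for `ξ = 0` (Lean's `x / 0 = 0`). -/
noncomputable def alphaT (x u w0 w1 ξ s : ℝ) : ℝ :=
  Real.sqrt x * aF x u w0 w1 (s * x / ξ) / ξ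

/-- The trial coefficient `β_k(s)`. -/
noncomputable def betaT (x u w0 w1 υ s : ℝ) : ℝ :=
  Real.sqrt u * bF x u w0 w1 (s * u / υ) / υ

theorem GB_symm (x u w0 w1 υ Q s : ℝ) : GB x u w0 w1 υ Q s = GA u x w1 w0 υ Q s := by
  unfold GA GB; simp only [FbF_symm, bF_symm]

theorem bS_symm (x u w0 w1 υ s : ℝ) : bS x u w0 w1 υ s = aS u x w1 w0 υ s := by
  unfold aS bS; simp only [bF_symm]

theorem betaT_symm (x u w0 w1 υ s : ℝ) : betaT x u w0 w1 υ s = alphaT u x w1 w0 υ s := by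
  unfold alphaT betaT; simp only [bF_symm]

theorem alphaT_mul (x u w0 w1 ξ s : ℝ) :
    alphaT x u w0 w1 ξ s * ξ = Real.sqrt x * aS x u w0 w1 ξ s := by
  unfold alphaT aS
  by_cases h : ξ = 0
  · simp [h]
  · rw [if_neg h]; field_simp

theorem betaT_mul (x u w0 w1 υ s : ℝ) :
    betaT x u w0 w1 υ s * υ = Real.sqrt u * bS x u w0 w1 υ s := by
  rw [betaT_symm, bS_symm, alphaT_mul]

/-- The diagonal `j`-term of the trial value. -/
theorem trial_term_a {x : ℝ} (hx : 0 ≤ x) (u w0 w1 ξ P s : ℝ) :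
    2 * (alphaT x u w0 w1 ξ s * ξ)
      - alphaT x u w0 w1 ξ s ^ 2 * ξ * (ξ + s + P) = GA x u w0 w1 ξ P s := by
  unfold alphaT GA FaF
  by_cases h : ξ = 0
  · simp [h]
  · rw [if_neg h]
    have hsx : Real.sqrt x ^ 2 = x := Real.sq_sqrt hx
    generalize aF x u w0 w1 (s * x / ξ) = A
    generalize Real.sqrt x = sx at hsx
    subst hsx
    field_simp
    ring

theorem trial_term_b {u : ℝ} (hu : 0 ≤ u) (x w0 w1 υ Q s : ℝ) :
    2 * (betaT x u w0 w1 υ s * υ)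
      - betaT x u w0 w1 υ s ^ 2 * υ * (υ + s + Q) = GB x u w0 w1 υ Q s := by
  rw [betaT_symm, GB_symm]; exact trial_term_a hu x w1 w0 υ Q s

/-- The cross term of the trial value. -/
theorem trial_term_cross (x u w0 w1 ξ υ κ s : ℝ) :
    alphaT x u w0 w1 ξ s * betaT x u w0 w1 υ s * (ξ * υ * κ)
      = κ * ((Real.sqrt x * aS x u w0 w1 ξ s) * (Real.sqrt u * bS x u w0 w1 υ s)) := by
  rw [← alphaT_mul, ← betaT_mul]; ring

/-- The trial value `V(s)`: the left-hand side of the variational bound at the trial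
coefficients `alphaT`, `betaT`. -/
noncomputable def Vtrial {J K : Type*} [Fintype J] [Fintype K] (ξ P : J → ℝ) (υ Q : K → ℝ)
    (κ : J → K → ℝ) (w0 w1 s : ℝ) : ℝ :=
  2 * ∑ j, alphaT (∑ j, ξ j) (∑ k, υ k) w0 w1 (ξ j) s * ξ j
    + 2 * ∑ k, betaT (∑ j, ξ j) (∑ k, υ k) w0 w1 (υ k) s * υ k
    - ∑ j, alphaT (∑ j, ξ j) (∑ k, υ k) w0 w1 (ξ j) s ^ 2 * ξ j * (ξ j + s + P j)
    - ∑ k, betaT (∑ j, ξ j) (∑ k, υ k) w0 w1 (υ k) s ^ 2 * υ k * (υ k + s + Q k)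
    - 2 * ∑ j, ∑ k, alphaT (∑ j, ξ j) (∑ k, υ k) w0 w1 (ξ j) s
        * betaT (∑ j, ξ j) (∑ k, υ k) w0 w1 (υ k) s * (ξ j * υ k * κ j k)

/-- `V(s)` as a sum of explicit pieces. -/
theorem Vtrial_eq {J K : Type*} [Fintype J] [Fintype K] (ξ P : J → ℝ) (υ Q : K → ℝ)
    (κ : J → K → ℝ) (w0 w1 s : ℝ) (hx : 0 ≤ ∑ j, ξ j) (hu : 0 ≤ ∑ k, υ k) :
    Vtrial ξ P υ Q κ w0 w1 s
      = ∑ j, GA (∑ j, ξ j) (∑ k, υ k) w0 w1 (ξ j) (P j) s
        + ∑ k, GB (∑ j, ξ j) (∑ k, υ k) w0 w1 (υ k) (Q k) s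
        - 2 * (Real.sqrt (∑ j, ξ j) * Real.sqrt (∑ k, υ k)) *
            ∑ j, ∑ k, κ j k * (aS (∑ j, ξ j) (∑ k, υ k) w0 w1 (ξ j) s
              * bS (∑ j, ξ j) (∑ k, υ k) w0 w1 (υ k) s) := by
  unfold Vtrial
  set x := ∑ j, ξ j
  set u := ∑ k, υ k
  have e1 : ∑ j, GA x u w0 w1 (ξ j) (P j) s
      = 2 * ∑ j, alphaT x u w0 w1 (ξ j) s * ξ j
        - ∑ j, alphaT x u w0 w1 (ξ j) s ^ 2 * ξ j * (ξ j + s + P j) := by
    rw [Finset.mul_sum, ← Finset.sum_sub_distrib]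
    exact Finset.sum_congr rfl fun j _ => (trial_term_a hx u w0 w1 (ξ j) (P j) s).symm
  have e2 : ∑ k, GB x u w0 w1 (υ k) (Q k) s
      = 2 * ∑ k, betaT x u w0 w1 (υ k) s * υ k
        - ∑ k, betaT x u w0 w1 (υ k) s ^ 2 * υ k * (υ k + s + Q k) := by
    rw [Finset.mul_sum, ← Finset.sum_sub_distrib]
    exact Finset.sum_congr rfl fun k _ => (trial_term_b hu x w0 w1 (υ k) (Q k) s).symm
  have e3 : ∑ j, ∑ k, alphaT x u w0 w1 (ξ j) s * betaT x u w0 w1 (υ k) s * (ξ j * υ k * κ j k)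
      = (Real.sqrt x * Real.sqrt u) *
          ∑ j, ∑ k, κ j k * (aS x u w0 w1 (ξ j) s * bS x u w0 w1 (υ k) s) := by
    rw [Finset.mul_sum]
    apply Finset.sum_congr rfl; intro j _
    rw [Finset.mul_sum]
    apply Finset.sum_congr rfl; intro k _
    rw [trial_term_cross]; ring
  rw [e1, e2, e3]; ring

/-! ### The scalar integrals (definitions only; the analysis is in `Trial/ScalarInt*.lean`) -/

open MeasureTheory in
/-- `-vᵀ log(m) v` as a resolvent integral. -/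
noncomputable def scalarLog (x u w0 w1 : ℝ) : ℝ :=
  ∫ s in Set.Ioi (0 : ℝ), (rF x u w0 w1 s - (x + u) / (1 + s))

open MeasureTheory in
noncomputable def IA (x u w0 w1 : ℝ) : ℝ :=
  ∫ t in Set.Ioi (0 : ℝ), (FaF x u w0 w1 t - x / (1 + t))

open MeasureTheory in
noncomputable def IB (x u w0 w1 : ℝ) : ℝ :=
  ∫ t in Set.Ioi (0 : ℝ), (FbF x u w0 w1 t - u / (1 + t))

open MeasureTheory in
noncomputable def Iaa (x u w0 w1 : ℝ) : ℝ := ∫ t in Set.Ioi (0 : ℝ), aF x u w0 w1 t ^ 2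

open MeasureTheory in
noncomputable def Ibb (x u w0 w1 : ℝ) : ℝ := ∫ t in Set.Ioi (0 : ℝ), bF x u w0 w1 t ^ 2

open MeasureTheory in
noncomputable def Iab (x u w0 w1 : ℝ) : ℝ :=
  ∫ t in Set.Ioi (0 : ℝ), aF x u w0 w1 t * bF x u w0 w1 t

theorem IB_symm (x u w0 w1 : ℝ) : IB x u w0 w1 = IA u x w1 w0 := by
  unfold IA IB; simp only [FbF_symm]

theorem Ibb_symm (x u w0 w1 : ℝ) : Ibb x u w0 w1 = Iaa u x w1 w0 := by
  unfold Iaa Ibb; simp only [bF_symm]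

theorem Iab_symm (x u w0 w1 : ℝ) : Iab x u w0 w1 = Iab u x w1 w0 := by
  unfold Iab
  have h : ∀ t : ℝ, aF x u w0 w1 t * bF x u w0 w1 t = aF u x w1 w0 t * bF u x w1 w0 t := by
    intro t
    rw [aF_symm x u w0 w1 t, bF_symm x u w0 w1 t, mul_comm]
  simp_rw [h]

end Crest.Agent.GAD.Trial
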