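import Mathlib
import Crest.Agent.GAD.Trial.Scalar
import Crest.Agent.GAD.Trial.LogIntSum

/-!
Route 2 for row 341: the classical (commutative) core of (DER2).

`classical_der2`: from the pointwise variational bound `htrial` (delivered by the matrix side:
`Trial/Resolvent.lean` + `Trial/TrialValue.lean`) to the logarithmic inequality.
-/

open MeasureTheory Set

namespace Crest.Agent.GAD.Trial

/-- The scalar-integral facts (S1, S3, S0 of the route-2 table) that `classical_der2` consumes;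
they are proved in `Trial/ScalarInt*.lean` and bundled here so that the glue can be written
independently. -/
def ScalarIntFacts : Prop :=
  (∀ (x u w0 w1 ξ P : ℝ), 0 < x → 0 ≤ u → 0 < w0 → 0 < w1 → 0 < ξ → 0 ≤ P →
      IntegrableOn (fun s => GA x u w0 w1 ξ P s - ξ / (1 + s)) (Ioi 0) ∧
      (∫ s in Ioi (0 : ℝ), (GA x u w0 w1 ξ P s - ξ / (1 + s)))
        = ξ / x * IA x u w0 w1 - P * Iaa x u w0 w1 + ξ * Real.log (x / ξ)) ∧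
  (∀ (x u w0 w1 ξ0 υ0 : ℝ), 0 ≤ x → 0 ≤ u → 0 < w0 → 0 < w1 → 0 ≤ ξ0 → 0 ≤ υ0 →
      IntegrableOn (fun s => aS x u w0 w1 ξ0 s * bS x u w0 w1 υ0 s) (Ioi 0)) ∧
  (∀ (J K : Type) [Fintype J] [Fintype K] (ξ : J → ℝ) (υ : K → ℝ) (κ : J → K → ℝ),
      (∀ j, 0 ≤ ξ j) → (∀ k, 0 ≤ υ k) → (∀ j k, 0 ≤ κ j k) →
      (∀ j, ∑ k, κ j k ≤ 1) → (∀ k, ∑ j, κ j k ≤ 1) → ∀ (w0 w1 : ℝ), 0 < w0 → 0 < w1 →
      0 < ∑ j, ξ j → 0 < ∑ k, υ k →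
      ∑ j, ∑ k, κ j k * (∫ s in Ioi (0 : ℝ), aS (∑ j, ξ j) (∑ k, υ k) w0 w1 (ξ j) s
          * bS (∑ j, ξ j) (∑ k, υ k) w0 w1 (υ k) s)
        ≤ Iab (∑ j, ξ j) (∑ k, υ k) w0 w1) ∧
  (∀ (x u w0 w1 : ℝ), 0 ≤ x → 0 ≤ u → 0 < w0 → 0 < w1 →
      scalarLog x u w0 w1 = IA x u w0 w1 + IB x u w0 w1 - w0 * Iaa x u w0 w1
        - w1 * Ibb x u w0 w1 - 2 * (Real.sqrt x * Real.sqrt u) * Iab x u w0 w1)

section Facts

variable (hF : ScalarIntFacts)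
include hF

theorem integrableOn_GA {x u w0 w1 ξ P : ℝ} (hx : 0 < x) (hu : 0 ≤ u) (hw0 : 0 < w0)
    (hw1 : 0 < w1) (hξ : 0 < ξ) (hP : 0 ≤ P) :
    IntegrableOn (fun s => GA x u w0 w1 ξ P s - ξ / (1 + s)) (Ioi 0) :=
  (hF.1 x u w0 w1 ξ P hx hu hw0 hw1 hξ hP).1

theorem integral_GA {x u w0 w1 ξ P : ℝ} (hx : 0 < x) (hu : 0 ≤ u) (hw0 : 0 < w0)
    (hw1 : 0 < w1) (hξ : 0 < ξ) (hP : 0 ≤ P) :
    (∫ s in Ioi (0 : ℝ), (GA x u w0 w1 ξ P s - ξ / (1 + s)))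
      = ξ / x * IA x u w0 w1 - P * Iaa x u w0 w1 + ξ * Real.log (x / ξ) :=
  (hF.1 x u w0 w1 ξ P hx hu hw0 hw1 hξ hP).2

theorem integrableOn_aS_mul_bS {x u w0 w1 : ℝ} (hx : 0 ≤ x) (hu : 0 ≤ u) (hw0 : 0 < w0)
    (hw1 : 0 < w1) (ξ0 υ0 : ℝ) (hξ0 : 0 ≤ ξ0) (hυ0 : 0 ≤ υ0) :
    IntegrableOn (fun s => aS x u w0 w1 ξ0 s * bS x u w0 w1 υ0 s) (Ioi 0) :=
  hF.2.1 x u w0 w1 ξ0 υ0 hx hu hw0 hw1 hξ0 hυ0

theorem cross_le {J K : Type} [Fintype J] [Fintype K] (ξ : J → ℝ) (υ : K → ℝ)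
    (κ : J → K → ℝ) (hξ : ∀ j, 0 ≤ ξ j) (hυ : ∀ k, 0 ≤ υ k) (hκ : ∀ j k, 0 ≤ κ j k)
    (hrow : ∀ j, ∑ k, κ j k ≤ 1) (hcol : ∀ k, ∑ j, κ j k ≤ 1) {w0 w1 : ℝ} (hw0 : 0 < w0)
    (hw1 : 0 < w1) (hx : 0 < ∑ j, ξ j) (hu : 0 < ∑ k, υ k) :
    ∑ j, ∑ k, κ j k * (∫ s in Ioi (0 : ℝ), aS (∑ j, ξ j) (∑ k, υ k) w0 w1 (ξ j) s
        * bS (∑ j, ξ j) (∑ k, υ k) w0 w1 (υ k) s)
      ≤ Iab (∑ j, ξ j) (∑ k, υ k) w0 w1 :=
  hF.2.2.1 J K ξ υ κ hξ hυ hκ hrow hcol w0 w1 hw0 hw1 hx hu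

theorem scalarLog_eq {x u w0 w1 : ℝ} (hx : 0 ≤ x) (hu : 0 ≤ u) (hw0 : 0 < w0) (hw1 : 0 < w1) :
    scalarLog x u w0 w1 = IA x u w0 w1 + IB x u w0 w1 - w0 * Iaa x u w0 w1 - w1 * Ibb x u w0 w1
      - 2 * (Real.sqrt x * Real.sqrt u) * Iab x u w0 w1 :=
  hF.2.2.2 x u w0 w1 hx hu hw0 hw1

end Facts

theorem Iaa_nonneg (x u w0 w1 : ℝ) : 0 ≤ Iaa x u w0 w1 := by
  unfold Iaa
  exact setIntegral_nonneg measurableSet_Ioi fun t _ => sq_nonneg _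

theorem Ibb_nonneg (x u w0 w1 : ℝ) : 0 ≤ Ibb x u w0 w1 := by
  rw [Ibb_symm]; exact Iaa_nonneg _ _ _ _

/-- Integrability of a diagonal piece (also for `ξ = 0`). -/
theorem integrableOn_GA' (hF : ScalarIntFacts) {x u w0 w1 ξ P : ℝ} (hx : 0 < x) (hu : 0 ≤ u) (hw0 : 0 < w0)
    (hw1 : 0 < w1) (hξ : 0 ≤ ξ) (hP : 0 ≤ P) :
    IntegrableOn (fun s => GA x u w0 w1 ξ P s - ξ / (1 + s)) (Ioi 0) := by
  rcases hξ.eq_or_lt with h | h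
  · subst h
    have : (fun s : ℝ => GA x u w0 w1 0 P s - 0 / (1 + s)) = fun _ => 0 := by
      funext s; simp [GA]
    rw [this]; exact integrableOn_zero
  · exact integrableOn_GA hF hx hu hw0 hw1 h hP

/-- Lower bound for the integral of a diagonal piece (equality for `ξ > 0`). -/
theorem integral_GA_ge (hF : ScalarIntFacts) {x u w0 w1 ξ P : ℝ} (hx : 0 < x) (hu : 0 ≤ u) (hw0 : 0 < w0)
    (hw1 : 0 < w1) (hξ : 0 ≤ ξ) (hP : 0 ≤ P) :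
    ξ / x * IA x u w0 w1 - P * Iaa x u w0 w1 + (ξ * Real.log x + Real.negMulLog ξ)
      ≤ ∫ s in Ioi (0 : ℝ), (GA x u w0 w1 ξ P s - ξ / (1 + s)) := by
  rcases hξ.eq_or_lt with h | h
  · subst h
    have : (fun s : ℝ => GA x u w0 w1 0 P s - 0 / (1 + s)) = fun _ => 0 := by
      funext s; simp [GA]
    rw [this]
    have := mul_nonneg hP (Iaa_nonneg x u w0 w1)
    simp
    linarith
  · rw [integral_GA hF hx hu hw0 hw1 h hP, Real.log_div hx.ne' h.ne', Real.negMulLog]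
    apply le_of_eq; ring

theorem integrableOn_GB' (hF : ScalarIntFacts) {x u w0 w1 υ Q : ℝ} (hx : 0 ≤ x) (hu : 0 < u) (hw0 : 0 < w0)
    (hw1 : 0 < w1) (hυ : 0 ≤ υ) (hQ : 0 ≤ Q) :
    IntegrableOn (fun s => GB x u w0 w1 υ Q s - υ / (1 + s)) (Ioi 0) := by
  simp only [GB_symm]; exact integrableOn_GA' hF hu hx hw1 hw0 hυ hQ

theorem integral_GB_ge (hF : ScalarIntFacts) {x u w0 w1 υ Q : ℝ} (hx : 0 ≤ x) (hu : 0 < u) (hw0 : 0 < w0)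
    (hw1 : 0 < w1) (hυ : 0 ≤ υ) (hQ : 0 ≤ Q) :
    υ / u * IB x u w0 w1 - Q * Ibb x u w0 w1 + (υ * Real.log u + Real.negMulLog υ)
      ≤ ∫ s in Ioi (0 : ℝ), (GB x u w0 w1 υ Q s - υ / (1 + s)) := by
  simp only [GB_symm, IB_symm, Ibb_symm]; exact integral_GA_ge hF hu hx hw1 hw0 hυ hQ

section Main

variable {I : Type*} {J K : Type} [Fintype I] [Fintype J] [Fintype K]

/-- The integrated trial bound (B5). -/
theorem trial_integral (hF : ScalarIntFacts)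
    (ξ P : J → ℝ) (υ Q : K → ℝ) (κ : J → K → ℝ)
    (hξ : ∀ j, 0 ≤ ξ j) (hυ : ∀ k, 0 ≤ υ k) (hP : ∀ j, 0 ≤ P j) (hQ : ∀ k, 0 ≤ Q k)
    (hκ : ∀ j k, 0 ≤ κ j k) (hrow : ∀ j, ∑ k, κ j k ≤ 1) (hcol : ∀ k, ∑ j, κ j k ≤ 1)
    (w0 w1 : ℝ) (hw0 : 0 < w0) (hw1 : 0 < w1) (hPs : ∑ j, P j ≤ w0) (hQs : ∑ k, Q k ≤ w1)
    (hx : 0 < ∑ j, ξ j) (hu : 0 < ∑ k, υ k) :
    IntegrableOn (fun s => Vtrial ξ P υ Q κ w0 w1 s - (∑ j, ξ j + ∑ k, υ k) / (1 + s)) (Ioi 0) ∧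
    (∑ j, Real.negMulLog (ξ j)) + (∑ k, Real.negMulLog (υ k)) - Real.negMulLog (∑ j, ξ j)
        - Real.negMulLog (∑ k, υ k) + scalarLog (∑ j, ξ j) (∑ k, υ k) w0 w1
      ≤ ∫ s in Ioi (0 : ℝ),
          (Vtrial ξ P υ Q κ w0 w1 s - (∑ j, ξ j + ∑ k, υ k) / (1 + s)) := by
  set x := ∑ j, ξ j with hxdef
  set u := ∑ k, υ k with hudef
  set cc : ℝ := 2 * (Real.sqrt x * Real.sqrt u) with hcc
  have hcc0 : 0 ≤ cc := by rw [hcc]; positivity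
  -- pointwise decomposition
  have hdecomp : (fun s => Vtrial ξ P υ Q κ w0 w1 s - (x + u) / (1 + s))
      = fun s => (∑ j, (GA x u w0 w1 (ξ j) (P j) s - ξ j / (1 + s)))
          + (∑ k, (GB x u w0 w1 (υ k) (Q k) s - υ k / (1 + s)))
          - cc * ∑ j, ∑ k, κ j k * (aS x u w0 w1 (ξ j) s * bS x u w0 w1 (υ k) s) := by
    funext s
    rw [Vtrial_eq ξ P υ Q κ w0 w1 s hx.le hu.le, Finset.sum_sub_distrib, Finset.sum_sub_distrib,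
      ← Finset.sum_div, ← Finset.sum_div]
    ring
  have hIA : ∀ j, IntegrableOn (fun s => GA x u w0 w1 (ξ j) (P j) s - ξ j / (1 + s)) (Ioi 0) :=
    fun j => integrableOn_GA' hF hx hu.le hw0 hw1 (hξ j) (hP j)
  have hIB : ∀ k, IntegrableOn (fun s => GB x u w0 w1 (υ k) (Q k) s - υ k / (1 + s)) (Ioi 0) :=
    fun k => integrableOn_GB' hF hx.le hu hw0 hw1 (hυ k) (hQ k)
  have hIC : ∀ j k, IntegrableOn
      (fun s => κ j k * (aS x u w0 w1 (ξ j) s * bS x u w0 w1 (υ k) s)) (Ioi 0) :=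
    fun j k => (integrableOn_aS_mul_bS hF hx.le hu.le hw0 hw1 (ξ j) (υ k) (hξ j) (hυ k)).const_mul _
  have hSA : IntegrableOn (fun s => ∑ j, (GA x u w0 w1 (ξ j) (P j) s - ξ j / (1 + s))) (Ioi 0) :=
    integrable_finsetSum _ fun j _ => hIA j
  have hSB : IntegrableOn (fun s => ∑ k, (GB x u w0 w1 (υ k) (Q k) s - υ k / (1 + s))) (Ioi 0) :=
    integrable_finsetSum _ fun k _ => hIB k
  have hSC : IntegrableOn
      (fun s => ∑ j, ∑ k, κ j k * (aS x u w0 w1 (ξ j) s * bS x u w0 w1 (υ k) s)) (Ioi 0) :=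
    integrable_finsetSum _ fun j _ => integrable_finsetSum _ fun k _ => hIC j k
  have hSAB : IntegrableOn (fun s => (∑ j, (GA x u w0 w1 (ξ j) (P j) s - ξ j / (1 + s)))
      + (∑ k, (GB x u w0 w1 (υ k) (Q k) s - υ k / (1 + s)))) (Ioi 0) := hSA.add hSB
  have hSCc : IntegrableOn
      (fun s => cc * ∑ j, ∑ k, κ j k * (aS x u w0 w1 (ξ j) s * bS x u w0 w1 (υ k) s)) (Ioi 0) :=
    hSC.const_mul cc
  have hint : IntegrableOn (fun s => Vtrial ξ P υ Q κ w0 w1 s - (x + u) / (1 + s)) (Ioi 0) := by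
    rw [hdecomp]
    exact hSAB.sub hSCc
  refine ⟨hint, ?_⟩
  -- the value of the integral
  have hval : (∫ s in Ioi (0 : ℝ), (Vtrial ξ P υ Q κ w0 w1 s - (x + u) / (1 + s)))
      = (∑ j, ∫ s in Ioi (0 : ℝ), (GA x u w0 w1 (ξ j) (P j) s - ξ j / (1 + s)))
        + (∑ k, ∫ s in Ioi (0 : ℝ), (GB x u w0 w1 (υ k) (Q k) s - υ k / (1 + s)))
        - cc * ∑ j, ∑ k, κ j k *
            ∫ s in Ioi (0 : ℝ), aS x u w0 w1 (ξ j) s * bS x u w0 w1 (υ k) s := by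
    rw [hdecomp]
    rw [integral_sub hSAB hSCc, integral_add hSA hSB,
      integral_finsetSum _ fun j _ => hIA j, integral_finsetSum _ fun k _ => hIB k,
      integral_const_mul, integral_finsetSum _ fun j _ =>
        (integrable_finsetSum _ fun k _ => hIC j k)]
    congr 2
    apply Finset.sum_congr rfl; intro j _
    rw [integral_finsetSum _ fun k _ => hIC j k]
    apply Finset.sum_congr rfl; intro k _
    rw [integral_const_mul]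
  rw [hval]
  -- lower bounds for the three groups
  have hA : ∑ j, (ξ j / x * IA x u w0 w1 - P j * Iaa x u w0 w1
        + (ξ j * Real.log x + Real.negMulLog (ξ j)))
      ≤ ∑ j, ∫ s in Ioi (0 : ℝ), (GA x u w0 w1 (ξ j) (P j) s - ξ j / (1 + s)) :=
    Finset.sum_le_sum fun j _ => integral_GA_ge hF hx hu.le hw0 hw1 (hξ j) (hP j)
  have hB : ∑ k, (υ k / u * IB x u w0 w1 - Q k * Ibb x u w0 w1
        + (υ k * Real.log u + Real.negMulLog (υ k)))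
      ≤ ∑ k, ∫ s in Ioi (0 : ℝ), (GB x u w0 w1 (υ k) (Q k) s - υ k / (1 + s)) :=
    Finset.sum_le_sum fun k _ => integral_GB_ge hF hx.le hu hw0 hw1 (hυ k) (hQ k)
  have hC := cross_le hF ξ υ κ hξ hυ hκ hrow hcol hw0 hw1 hx hu
  have hA' : ∑ j, (ξ j / x * IA x u w0 w1 - P j * Iaa x u w0 w1
        + (ξ j * Real.log x + Real.negMulLog (ξ j)))
      = IA x u w0 w1 - (∑ j, P j) * Iaa x u w0 w1 + x * Real.log x
        + ∑ j, Real.negMulLog (ξ j) := by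
    simp only [Finset.sum_add_distrib, Finset.sum_sub_distrib, ← Finset.sum_mul,
      ← Finset.sum_div]
    rw [← hxdef, div_self hx.ne']; ring
  have hB' : ∑ k, (υ k / u * IB x u w0 w1 - Q k * Ibb x u w0 w1
        + (υ k * Real.log u + Real.negMulLog (υ k)))
      = IB x u w0 w1 - (∑ k, Q k) * Ibb x u w0 w1 + u * Real.log u
        + ∑ k, Real.negMulLog (υ k) := by
    simp only [Finset.sum_add_distrib, Finset.sum_sub_distrib, ← Finset.sum_mul,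
      ← Finset.sum_div]
    rw [← hudef, div_self hu.ne']; ring
  rw [hA'] at hA
  rw [hB'] at hB
  have hPI : (∑ j, P j) * Iaa x u w0 w1 ≤ w0 * Iaa x u w0 w1 :=
    mul_le_mul_of_nonneg_right hPs (Iaa_nonneg _ _ _ _)
  have hQI : (∑ k, Q k) * Ibb x u w0 w1 ≤ w1 * Ibb x u w0 w1 :=
    mul_le_mul_of_nonneg_right hQs (Ibb_nonneg _ _ _ _)
  have hCC := mul_le_mul_of_nonneg_left hC hcc0
  rw [scalarLog_eq hF hx.le hu.le hw0 hw1]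
  have hnx : Real.negMulLog x = -(x * Real.log x) := by rw [Real.negMulLog]; ring
  have hnu : Real.negMulLog u = -(u * Real.log u) := by rw [Real.negMulLog]; ring
  rw [hnx, hnu]
  linarith

/-- **The classical core of (DER2).** -/
theorem classical_der2_of (hF : ScalarIntFacts)
    (c μ : I → ℝ) (hμ : ∀ i, 0 < μ i)
    (ξ P : J → ℝ) (υ Q : K → ℝ) (κ : J → K → ℝ)
    (hξ : ∀ j, 0 ≤ ξ j) (hυ : ∀ k, 0 ≤ υ k) (hP : ∀ j, 0 ≤ P j) (hQ : ∀ k, 0 ≤ Q k)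
    (hκ : ∀ j k, 0 ≤ κ j k) (hrow : ∀ j, ∑ k, κ j k ≤ 1) (hcol : ∀ k, ∑ j, κ j k ≤ 1)
    (w0 w1 : ℝ) (hw0 : 0 < w0) (hw1 : 0 < w1) (hPs : ∑ j, P j ≤ w0) (hQs : ∑ k, Q k ≤ w1)
    (hx : 0 < ∑ j, ξ j) (hu : 0 < ∑ k, υ k)
    (hcsum : ∑ i, c i = ∑ j, ξ j + ∑ k, υ k)
    (htrial : ∀ s : ℝ, 0 < s → ∀ (α : J → ℝ) (β : K → ℝ),
        2 * ∑ j, α j * ξ j + 2 * ∑ k, β k * υ k
          - ∑ j, α j ^ 2 * ξ j * (ξ j + s + P j) - ∑ k, β k ^ 2 * υ k * (υ k + s + Q k)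
          - 2 * ∑ j, ∑ k, α j * β k * (ξ j * υ k * κ j k)
        ≤ ∑ i, c i / (μ i + s)) :
    (∑ j, Real.negMulLog (ξ j)) + (∑ k, Real.negMulLog (υ k)) - Real.negMulLog (∑ j, ξ j)
        - Real.negMulLog (∑ k, υ k) + scalarLog (∑ j, ξ j) (∑ k, υ k) w0 w1
      ≤ - ∑ i, c i * Real.log (μ i) := by
  obtain ⟨hint, hge⟩ := trial_integral hF ξ P υ Q κ hξ hυ hP hQ hκ hrow hcol w0 w1 hw0 hw1 hPs hQs
    hx hu
  have hV : ∀ s : ℝ, 0 < s → Vtrial ξ P υ Q κ w0 w1 s ≤ ∑ i, c i / (μ i + s) := by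
    intro s hs
    exact htrial s hs _ _
  rw [← hcsum] at hint hge
  exact hge.trans (integral_le_neg_sum_log c μ (fun i _ => hμ i) _ hV hint)

end Main

end Crest.Agent.GAD.Trial
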