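import Mathlib
import Crest.Prelude.Def_QState
import Crest.Prelude.Def_QChannel
import Crest.Agent.GAD.Klein

/-!
# Route 2 (helper70 #1600/#1627): the interface `DER2` between the B-side (trial-function proof of
the core-scaling derivative inequality) and the A-side (`AD4ofDER2.lean`, Klein telescoping).

Definitions only (helper42).  Everything lives in `Crest.Agent.GAD.AD4D`.
-/

set_option autoImplicit false
set_option linter.unusedSectionVars false

open scoped ComplexOrder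
open Matrix

namespace Crest.Agent.GAD.AD4D

open Crest.Quantum
open Crest.Agent.GAD.Klein (diagIn)

section Defs

variable {d r : Type*} [Fintype d] [DecidableEq d] [Fintype r] [DecidableEq r]

/-- the coherent core `M0 = [a; b] [a; b]ᴴ` -/
def core4 (a b : Matrix d r ℂ) : Matrix (d ⊕ d) (d ⊕ d) ℂ :=
  Matrix.fromBlocks (a * aᴴ) (a * bᴴ) (b * aᴴ) (b * bᴴ)

/-- the block-diagonal leaves `T0 ⊕ T1` -/
def leaf4 (T0 T1 : Matrix d d ℂ) : Matrix (d ⊕ d) (d ⊕ d) ℂ := Matrix.fromBlocks T0 0 0 T1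

/-- the four-piece output `M = M0 + T0 ⊕ T1` (the matrix inside `psi4`) -/
def out4 (a b : Matrix d r ℂ) (T0 T1 : Matrix d d ℂ) : Matrix (d ⊕ d) (d ⊕ d) ℂ :=
  Matrix.fromBlocks (a * aᴴ + T0) (a * bᴴ) (b * aᴴ) (b * bᴴ + T1)

/-- a `1 × 1` matrix -/
def scal (c : ℝ) : Matrix Unit Unit ℂ := Matrix.of fun _ _ => (c : ℂ)

/-- scalar skeleton: `[[x + w0, √x √y], [√x √y, y + w1]]` on `Unit ⊕ Unit`. -/
noncomputable def skel4 (x y w0 w1 : ℝ) : Matrix (Unit ⊕ Unit) (Unit ⊕ Unit) ℂ :=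
  Matrix.fromBlocks (Matrix.of fun _ _ => ((x + w0 : ℝ) : ℂ))
    (Matrix.of fun _ _ => ((Real.sqrt x * Real.sqrt y : ℝ) : ℂ))
    (Matrix.of fun _ _ => ((Real.sqrt x * Real.sqrt y : ℝ) : ℂ))
    (Matrix.of fun _ _ => ((y + w1 : ℝ) : ℂ))

/-- (DER2) of #1562/#1600 in eigenvector form: positive definite leaves, nonzero core blocks;
`W diag(μ) W*` is ANY unitary diagonalisation of the four-piece matrix `out4 a b T0 T1` and
`w diag(β) w*` ANY unitary diagonalisation of its scalar skeleton.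
`∑ j, diagIn W (core4 a b) j * log (μ j)` is `tr (M0 log M)`, and
`∑ i, diagIn w (skel4 x y 0 0) i * log (β i)` is `vᵀ log(m) v`. -/
def DER2 : Prop :=
  ∀ (d r : Type) [Fintype d] [DecidableEq d] [Fintype r] [DecidableEq r]
    (a b : Matrix d r ℂ) (T0 T1 : Matrix d d ℂ), T0.PosDef → T1.PosDef →
    0 < (a * aᴴ).trace.re → 0 < (b * bᴴ).trace.re →
    ∀ (W : Matrix (d ⊕ d) (d ⊕ d) ℂ) (μ : d ⊕ d → ℝ), star W * W = 1 →
      out4 a b T0 T1 = W * Matrix.diagonal (fun i => (μ i : ℂ)) * star W →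
    ∀ (w : Matrix (Unit ⊕ Unit) (Unit ⊕ Unit) ℂ) (β : Unit ⊕ Unit → ℝ), star w * w = 1 →
      skel4 (a * aᴴ).trace.re (b * bᴴ).trace.re T0.trace.re T1.trace.re
        = w * Matrix.diagonal (fun i => (β i : ℂ)) * star w →
    vnEntropy (a * aᴴ) + vnEntropy (b * bᴴ) - Real.negMulLog (a * aᴴ).trace.re
        - Real.negMulLog (b * bᴴ).trace.re
        - ∑ i, diagIn w (skel4 (a * aᴴ).trace.re (b * bᴴ).trace.re 0 0) i * Real.log (β i)
      ≤ - ∑ j, diagIn W (core4 a b) j * Real.log (μ j)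

end Defs

end Crest.Agent.GAD.AD4D
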