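import Mathlib
import Crest.Agent.GAD.Klein
import Crest.Agent.GAD.Trial

/-!
# Route 2, module B2 (helper70 #1656): the resolvent trial bound in `Klein.diagIn` form

`resolvent_ge` and `resolvent_eq` in the exact shapes of the B-side table; thin layer over
`Crest.Agent.GAD.Trial.resolvent_bound` (file `GAD/Trial.lean`).
-/

set_option autoImplicit false
set_option linter.unusedSectionVars false

open scoped ComplexOrder
open Matrix

namespace Crest.Agent.GAD.Trial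

variable {n r : Type*} [Fintype n] [DecidableEq n] [Fintype r]

/-- **B2, inequality**: for `M = W diag(b) Wᴴ`, `W` unitary, `b i + s > 0`, and every trial `Φ`:
`2 Re tr(Γᴴ Φ) - tr(Φᴴ (M + s) Φ) ≤ ∑ i, ⟨w_i, Γ Γᴴ w_i⟩ / (b i + s)`. -/
theorem resolvent_ge (M W : Matrix n n ℂ) (hW : star W * W = 1) (b : n → ℝ)
    (hM : M = W * diagonal (fun i => (b i : ℂ)) * star W) (s : ℝ) (hpos : ∀ i, 0 < b i + s)
    (Gam Phi : Matrix n r ℂ) :
    2 * (Gamᴴ * Phi).trace.re - (Phiᴴ * (M + (s : ℂ) • (1 : Matrix n n ℂ)) * Phi).trace.re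
      ≤ ∑ i, Klein.diagIn W (Gam * Gamᴴ) i / (b i + s) :=
  resolvent_bound Gam Phi M W b hW hM s hpos

/-- **B2, equality at the optimiser**: if `(M + s) Φ = Γ` then
`∑ i, ⟨w_i, Γ Γᴴ w_i⟩ / (b i + s) = Re tr(Γᴴ Φ)`. -/
theorem resolvent_eq (M W : Matrix n n ℂ) (hW : star W * W = 1) (b : n → ℝ)
    (hM : M = W * diagonal (fun i => (b i : ℂ)) * star W) (s : ℝ) (hpos : ∀ i, 0 < b i + s)
    (Gam Phi : Matrix n r ℂ) (h : (M + (s : ℂ) • (1 : Matrix n n ℂ)) * Phi = Gam) :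
    ∑ i, Klein.diagIn W (Gam * Gamᴴ) i / (b i + s) = (Gamᴴ * Phi).trace.re := by
  have hW' : W * star W = 1 := mul_eq_one_comm.mp hW
  have hWH : Wᴴ * W = 1 := hW
  have hWH' : W * Wᴴ = 1 := hW'
  obtain ⟨Γ', hΓ'⟩ : ∃ Γ' : Matrix n r ℂ, Γ' = Wᴴ * Gam := ⟨_, rfl⟩
  obtain ⟨Φ', hΦ'⟩ : ∃ Φ' : Matrix n r ℂ, Φ' = Wᴴ * Phi := ⟨_, rfl⟩
  -- `Γ' = diag(b + s) Φ'`
  have hrel : Γ' = diagonal (fun i => ((b i + s : ℝ) : ℂ)) * Φ' := by
    have hMs : M + (s : ℂ) • (1 : Matrix n n ℂ)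
        = W * diagonal (fun i => ((b i + s : ℝ) : ℂ)) * Wᴴ := by
      have hd : diagonal (fun i => ((b i + s : ℝ) : ℂ))
          = diagonal (fun i => (b i : ℂ)) + (s : ℂ) • (1 : Matrix n n ℂ) := by
        ext i j
        by_cases hij : i = j
        · subst hij; simp
        · simp [hij]
      rw [hd, Matrix.mul_add, Matrix.add_mul, hM, star_eq_conjTranspose, Matrix.mul_smul,
        Matrix.mul_one, Matrix.smul_mul, hWH']
    rw [hΓ', ← h, hMs, hΦ']
    calc Wᴴ * (W * diagonal (fun i => ((b i + s : ℝ) : ℂ)) * Wᴴ * Phi)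
        = (Wᴴ * W) * diagonal (fun i => ((b i + s : ℝ) : ℂ)) * (Wᴴ * Phi) := by
          simp only [Matrix.mul_assoc]
      _ = diagonal (fun i => ((b i + s : ℝ) : ℂ)) * (Wᴴ * Phi) := by rw [hWH, Matrix.one_mul]
  have hentry : ∀ i ρ, Γ' i ρ = ((b i + s : ℝ) : ℂ) * Φ' i ρ := by
    intro i ρ
    rw [hrel, diagonal_mul]
  have ha : ∀ i, Klein.diagIn W (Gam * Gamᴴ) i = ∑ ρ, Complex.normSq (Γ' i ρ) := by
    intro i
    unfold Klein.diagIn
    have h1 : star W * (Gam * Gamᴴ) * W = Γ' * Γ'ᴴ := by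
      rw [hΓ', conjTranspose_mul, conjTranspose_conjTranspose, star_eq_conjTranspose]
      simp only [Matrix.mul_assoc]
    rw [h1, mul_conjTranspose_diag_re]
  have hb : Gamᴴ * Phi = Γ'ᴴ * Φ' := by
    rw [hΓ', hΦ', conjTranspose_mul, conjTranspose_conjTranspose]
    calc Gamᴴ * Phi = Gamᴴ * (W * Wᴴ) * Phi := by rw [hWH', Matrix.mul_one]
      _ = Gamᴴ * W * (Wᴴ * Phi) := by simp only [Matrix.mul_assoc]
  rw [hb, trace_conjTranspose_mul, Complex.re_sum]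
  refine Finset.sum_congr rfl fun i _ => ?_
  rw [ha i, Finset.sum_div, Complex.re_sum]
  refine Finset.sum_congr rfl fun ρ _ => ?_
  have hp := hpos i
  rw [hentry i ρ, Complex.star_def]
  simp only [Complex.normSq_apply, Complex.mul_re, Complex.mul_im, Complex.conj_re,
    Complex.conj_im, Complex.ofReal_re, Complex.ofReal_im, map_mul]
  field_simp
  ring

end Crest.Agent.GAD.Trial
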