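import Mathlib

/-!
Row 341, route 2 (helper70 #1600/#1627), analytic core, written by helper48.

Part 1: generic lemmas on `∫ over (0, ∞)`:
* integrability of `1 / ((p + t) * (q + t))`, domination lemma;
* `∫ (1/(y+s) - 1/(1+s)) ds = - log y`;
* scaling `s ↦ s / σ`.
-/

set_option autoImplicit false

open MeasureTheory Set Filter Topology

namespace Crest.Agent.GAD.Trial48

/-- `1/(m+t)^2` is integrable on `(0, ∞)` for `m > 0`. -/
theorem integrableOn_inv_sq {m : ℝ} (hm : 0 < m) :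
    IntegrableOn (fun t : ℝ => 1 / (m + t) ^ 2) (Ioi 0) := by
  have hderiv : ∀ t ∈ Ici (0:ℝ), HasDerivAt (fun t : ℝ => - (m + t)⁻¹) (1 / (m + t) ^ 2) t := by
    intro t ht
    have ht0 : (0:ℝ) ≤ t := ht
    have hne : m + t ≠ 0 := by positivity
    have h1 : HasDerivAt (fun t : ℝ => m + t) 1 t := by
      simpa using (hasDerivAt_id t).const_add m
    have h2 := (h1.fun_inv hne).fun_neg
    have h3 : (1 / (m + t) ^ 2 : ℝ) = -(-1 / (m + t) ^ 2) := by ring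
    rw [h3]
    exact h2
  have hpos : ∀ t ∈ Ioi (0:ℝ), 0 ≤ 1 / (m + t) ^ 2 := by
    intro t ht; positivity
  have hlim : Tendsto (fun t : ℝ => - (m + t)⁻¹) atTop (𝓝 0) := by
    have h1 : Tendsto (fun t : ℝ => m + t) atTop atTop := tendsto_atTop_add_const_left _ m tendsto_id
    have h2 := (tendsto_inv_atTop_zero.comp h1).neg
    simpa using h2
  exact integrableOn_Ioi_deriv_of_nonneg' hderiv hpos hlim

/-- `1/((p+t)(q+t))` is integrable on `(0, ∞)` for `p, q > 0`. -/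
theorem integrableOn_inv_mul_inv {p q : ℝ} (hp : 0 < p) (hq : 0 < q) :
    IntegrableOn (fun t : ℝ => 1 / ((p + t) * (q + t))) (Ioi 0) := by
  have hm : 0 < min p q := lt_min hp hq
  refine Integrable.mono' (integrableOn_inv_sq hm) ?_ ?_
  · exact Measurable.aestronglyMeasurable (by fun_prop)
  · refine (ae_restrict_iff' measurableSet_Ioi).2 (Filter.Eventually.of_forall ?_)
    intro t ht
    have ht0 : (0:ℝ) < t := ht
    have h1 : 0 < p + t := by linarith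
    have h2 : 0 < q + t := by linarith
    have h3 : 0 < min p q + t := by linarith
    rw [Real.norm_of_nonneg (by positivity)]
    apply one_div_le_one_div_of_le (by positivity)
    have h4 : min p q + t ≤ p + t := by linarith [min_le_left p q]
    have h5 : min p q + t ≤ q + t := by linarith [min_le_right p q]
    nlinarith

/-- Domination: a measurable function bounded on `(0, ∞)` by `C / ((p+t)(q+t))` is integrable
there. -/
theorem integrableOn_of_bound {f : ℝ → ℝ} {p q C : ℝ} (hp : 0 < p) (hq : 0 < q)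
    (hf : Measurable f) (hb : ∀ t : ℝ, 0 < t → |f t| ≤ C / ((p + t) * (q + t))) :
    IntegrableOn f (Ioi 0) := by
  have h0 : IntegrableOn (fun t : ℝ => C * (1 / ((p + t) * (q + t)))) (Ioi 0) :=
    (integrableOn_inv_mul_inv hp hq).const_mul C
  refine Integrable.mono' h0 hf.aestronglyMeasurable ?_
  refine (ae_restrict_iff' measurableSet_Ioi).2 (Filter.Eventually.of_forall ?_)
  intro t ht
  have := hb t ht
  rw [Real.norm_eq_abs]
  calc |f t| ≤ C / ((p + t) * (q + t)) := this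
    _ = C * (1 / ((p + t) * (q + t))) := by ring

/-- The integrand of `-log y`. -/
theorem integrableOn_inv_sub_inv {y : ℝ} (hy : 0 < y) :
    IntegrableOn (fun s : ℝ => 1 / (y + s) - 1 / (1 + s)) (Ioi 0) := by
  refine integrableOn_of_bound (p := y) (q := 1) (C := |1 - y|) hy one_pos (by fun_prop) ?_
  intro t ht
  have h1 : 0 < y + t := by linarith
  have h2 : 0 < 1 + t := by linarith
  have : 1 / (y + t) - 1 / (1 + t) = (1 - y) / ((y + t) * (1 + t)) := by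
    field_simp; ring
  rw [this, abs_div, abs_of_pos (by positivity : 0 < (y + t) * (1 + t))]

theorem integral_inv_sub_inv {y : ℝ} (hy : 0 < y) :
    (∫ s in Ioi (0:ℝ), (1 / (y + s) - 1 / (1 + s))) = - Real.log y := by
  have hderiv : ∀ s ∈ Ici (0:ℝ),
      HasDerivAt (fun s : ℝ => Real.log (y + s) - Real.log (1 + s))
        (1 / (y + s) - 1 / (1 + s)) s := by
    intro s hs
    have hs0 : (0:ℝ) ≤ s := hs
    have h1 : y + s ≠ 0 := by positivity
    have h2 : 1 + s ≠ 0 := by positivity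
    have d1 : HasDerivAt (fun s : ℝ => y + s) 1 s := by
      simpa using (hasDerivAt_id s).const_add y
    have d2 : HasDerivAt (fun s : ℝ => 1 + s) 1 s := by
      simpa using (hasDerivAt_id s).const_add 1
    exact (d1.log h1).fun_sub (d2.log h2)
  have hlim : Tendsto (fun s : ℝ => Real.log (y + s) - Real.log (1 + s)) atTop (𝓝 0) := by
    have h1 : Tendsto (fun s : ℝ => (y + s) / (1 + s)) atTop (𝓝 1) := by
      have h2 : Tendsto (fun s : ℝ => 1 + (y - 1) * (1 + s)⁻¹) atTop (𝓝 (1 + (y - 1) * 0)) := by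
        have h3 : Tendsto (fun s : ℝ => 1 + s) atTop atTop :=
          tendsto_atTop_add_const_left _ 1 tendsto_id
        exact tendsto_const_nhds.add ((tendsto_inv_atTop_zero.comp h3).const_mul _)
      have h4 : (1:ℝ) + (y - 1) * 0 = 1 := by ring
      rw [h4] at h2
      refine h2.congr' ?_
      filter_upwards [eventually_gt_atTop (0:ℝ)] with s hs
      have : (1:ℝ) + s ≠ 0 := by positivity
      field_simp
      ring
    have h5 := (Real.continuousAt_log (one_ne_zero)).tendsto.comp h1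
    rw [Real.log_one] at h5
    refine h5.congr' ?_
    filter_upwards [eventually_gt_atTop (0:ℝ)] with s hs
    have h6 : y + s ≠ 0 := by positivity
    have h7 : (1:ℝ) + s ≠ 0 := by positivity
    simp [Function.comp, Real.log_div h6 h7]
  have := integral_Ioi_of_hasDerivAt_of_tendsto' hderiv (integrableOn_inv_sub_inv hy) hlim
  rw [this]
  simp

/-- Scaling of the integration variable on `(0, ∞)`. -/
theorem integral_comp_div {f : ℝ → ℝ} {σ : ℝ} (hσ : 0 < σ) :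
    (∫ s in Ioi (0:ℝ), f (s / σ)) = σ * ∫ t in Ioi (0:ℝ), f t := by
  have h := integral_comp_mul_left_Ioi f 0 (inv_pos.mpr hσ)
  simp only [mul_zero, inv_inv, smul_eq_mul] at h
  rw [← h]
  congr 1
  ext s
  rw [div_eq_inv_mul]

theorem integrableOn_comp_div {f : ℝ → ℝ} {σ : ℝ} (hσ : 0 < σ) (hf : IntegrableOn f (Ioi 0)) :
    IntegrableOn (fun s : ℝ => f (s / σ)) (Ioi 0) := by
  have h := (integrableOn_Ioi_comp_mul_left_iff f 0 (inv_pos.mpr hσ)).2 (by simpa using hf)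
  refine h.congr_fun (fun s _ => ?_) measurableSet_Ioi
  simp [div_eq_inv_mul]

/-! ## Part 2: the scalar resolvent functions (square-root free) -/

section Scalar

/-- `det (m + t)` for `m = diag(w0,w1) + v vᵀ`, `v = (√x, √u)`. -/
def Dl (x u w0 w1 t : ℝ) : ℝ := (x + w0 + t) * (u + w1 + t) - x * u

/-- `α(t) = a(t)/√x = (w1 + t)/Δ(t)`; the other branch is `β = alF u x w1 w0`. -/
noncomputable def alF (x u w0 w1 t : ℝ) : ℝ := (w1 + t) / Dl x u w0 w1 t

/-- `Fa(t) - x/(x+t)`, where `Fa = 2 √x a - (x+t) a²`. -/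
noncomputable def GaF (x u w0 w1 t : ℝ) : ℝ :=
  2 * x * alF x u w0 w1 t - (x + t) * x * (alF x u w0 w1 t) ^ 2 - x / (x + t)

/-- `vᵀ (m + s)⁻¹ v`, text of #1656. -/
noncomputable def rF (x u w0 w1 s : ℝ) : ℝ :=
  (x * (w1 + s) + u * (w0 + s)) / ((x + w0 + s) * (u + w1 + s) - x * u)

theorem Dl_symm (x u w0 w1 t : ℝ) : Dl u x w1 w0 t = Dl x u w0 w1 t := by
  unfold Dl; ring

variable {x u w0 w1 : ℝ}

theorem Dl_ge (hx : 0 ≤ x) (hu : 0 ≤ u) (hw0 : 0 < w0) (hw1 : 0 < w1) {t : ℝ} (ht : 0 ≤ t) :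
    (w0 + t) * (w1 + t) ≤ Dl x u w0 w1 t := by
  have h1 : 0 ≤ x * (w1 + t) := mul_nonneg hx (by linarith)
  have h2 : 0 ≤ u * (w0 + t) := mul_nonneg hu (by linarith)
  unfold Dl
  nlinarith

theorem Dl_pos (hx : 0 ≤ x) (hu : 0 ≤ u) (hw0 : 0 < w0) (hw1 : 0 < w1) {t : ℝ} (ht : 0 ≤ t) :
    0 < Dl x u w0 w1 t := by
  have h := Dl_ge hx hu hw0 hw1 ht
  have h1 : 0 < (w0 + t) * (w1 + t) := by positivity
  linarith

theorem alF_nonneg (hx : 0 ≤ x) (hu : 0 ≤ u) (hw0 : 0 < w0) (hw1 : 0 < w1) {t : ℝ}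
    (ht : 0 ≤ t) : 0 ≤ alF x u w0 w1 t := by
  unfold alF
  exact div_nonneg (by linarith) (Dl_pos hx hu hw0 hw1 ht).le

theorem alF_le (hx : 0 ≤ x) (hu : 0 ≤ u) (hw0 : 0 < w0) (hw1 : 0 < w1) {t : ℝ}
    (ht : 0 ≤ t) : alF x u w0 w1 t ≤ 1 / (w0 + t) := by
  unfold alF
  rw [div_le_div_iff₀ (Dl_pos hx hu hw0 hw1 ht) (by linarith)]
  have := Dl_ge hx hu hw0 hw1 ht
  linarith

theorem measurable_alF : Measurable (alF x u w0 w1) := by
  unfold alF Dl; fun_prop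

theorem measurable_GaF : Measurable (GaF x u w0 w1) := by
  unfold GaF alF Dl; fun_prop

theorem GaF_eq (hx : 0 ≤ x) (hu : 0 ≤ u) (hw0 : 0 < w0) (hw1 : 0 < w1) {t : ℝ} (ht : 0 < t) :
    GaF x u w0 w1 t =
      - (x * (w0 * (w1 + t) + u * (w0 + t)) ^ 2) / ((Dl x u w0 w1 t) ^ 2 * (x + t)) := by
  have hD := (Dl_pos hx hu hw0 hw1 ht.le).ne'
  have hxt : x + t ≠ 0 := by positivity
  have hD' : Dl x u w0 w1 t = x * (w1 + t) + u * (w0 + t) + (w0 + t) * (w1 + t) := by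
    unfold Dl; ring
  unfold GaF alF
  rw [eq_div_iff (by positivity)]
  field_simp
  rw [hD']
  ring

theorem GaF_nonpos (hx : 0 ≤ x) (hu : 0 ≤ u) (hw0 : 0 < w0) (hw1 : 0 < w1) {t : ℝ}
    (ht : 0 < t) : GaF x u w0 w1 t ≤ 0 := by
  rw [GaF_eq hx hu hw0 hw1 ht]
  have hD := Dl_pos hx hu hw0 hw1 ht.le
  have : 0 ≤ (x * (w0 * (w1 + t) + u * (w0 + t)) ^ 2) / ((Dl x u w0 w1 t) ^ 2 * (x + t)) := by
    positivity
  rw [neg_div]
  linarith

theorem GaF_abs_le (hx : 0 ≤ x) (hu : 0 ≤ u) (hw0 : 0 < w0) (hw1 : 0 < w1) {t : ℝ}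
    (ht : 0 < t) :
    |GaF x u w0 w1 t| ≤ (w0 + u) ^ 2 / ((min w0 w1 + t) * (min w0 w1 + t)) := by
  have hD := Dl_pos hx hu hw0 hw1 ht.le
  have hDge := Dl_ge hx hu hw0 hw1 ht.le
  have hm : 0 < min w0 w1 := lt_min hw0 hw1
  have hm0 : min w0 w1 ≤ w0 := min_le_left _ _
  have hm1 : min w0 w1 ≤ w1 := min_le_right _ _
  rw [abs_of_nonpos (GaF_nonpos hx hu hw0 hw1 ht), GaF_eq hx hu hw0 hw1 ht, neg_div, neg_neg]
  set N := w0 * (w1 + t) + u * (w0 + t) with hN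
  set D := Dl x u w0 w1 t with hDdef
  set m := min w0 w1 with hmdef
  have hN0 : 0 ≤ N := by positivity
  -- N (m+t) ≤ (w0+u) D
  have h1 : N * (m + t) ≤ (w0 + u) * D := by
    have ha : w0 * (w1 + t) * (m + t) ≤ w0 * ((w0 + t) * (w1 + t)) := by
      have : (w1 + t) * (m + t) ≤ (w0 + t) * (w1 + t) := by
        have h0 : 0 ≤ w1 + t := by linarith
        nlinarith
      nlinarith
    have hb : u * (w0 + t) * (m + t) ≤ u * ((w0 + t) * (w1 + t)) := by
      have : (w0 + t) * (m + t) ≤ (w0 + t) * (w1 + t) := by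
        have h0 : 0 ≤ w0 + t := by linarith
        nlinarith
      nlinarith
    have hc : (w0 + u) * ((w0 + t) * (w1 + t)) ≤ (w0 + u) * D :=
      mul_le_mul_of_nonneg_left hDge (by linarith)
    calc N * (m + t) = w0 * (w1 + t) * (m + t) + u * (w0 + t) * (m + t) := by rw [hN]; ring
      _ ≤ w0 * ((w0 + t) * (w1 + t)) + u * ((w0 + t) * (w1 + t)) := add_le_add ha hb
      _ = (w0 + u) * ((w0 + t) * (w1 + t)) := by ring
      _ ≤ (w0 + u) * D := hc
  have h2 : (N * (m + t)) ^ 2 ≤ ((w0 + u) * D) ^ 2 :=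
    pow_le_pow_left₀ (by positivity) h1 2
  rw [div_le_div_iff₀ (by positivity) (by positivity)]
  have h3 : x * (N * (m + t)) ^ 2 ≤ (x + t) * ((w0 + u) * D) ^ 2 :=
    mul_le_mul (by linarith) h2 (by positivity) (by linarith)
  calc x * N ^ 2 * ((m + t) * (m + t)) = x * (N * (m + t)) ^ 2 := by ring
    _ ≤ (x + t) * ((w0 + u) * D) ^ 2 := h3
    _ = (w0 + u) ^ 2 * (D ^ 2 * (x + t)) := by ring

theorem integrableOn_GaF (hx : 0 ≤ x) (hu : 0 ≤ u) (hw0 : 0 < w0) (hw1 : 0 < w1) :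
    IntegrableOn (GaF x u w0 w1) (Ioi 0) :=
  integrableOn_of_bound (lt_min hw0 hw1) (lt_min hw0 hw1) measurable_GaF
    (fun _ ht => GaF_abs_le hx hu hw0 hw1 ht)

theorem integral_GaF_nonpos (hx : 0 ≤ x) (hu : 0 ≤ u) (hw0 : 0 < w0) (hw1 : 0 < w1) :
    (∫ t in Ioi (0:ℝ), GaF x u w0 w1 t) ≤ 0 :=
  setIntegral_nonpos measurableSet_Ioi (fun _ ht => GaF_nonpos hx hu hw0 hw1 ht)

/-- `x α²` is integrable. -/
theorem integrableOn_alF_sq (hx : 0 ≤ x) (hu : 0 ≤ u) (hw0 : 0 < w0) (hw1 : 0 < w1) :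
    IntegrableOn (fun t => x * (alF x u w0 w1 t) ^ 2) (Ioi 0) := by
  refine integrableOn_of_bound (C := x) hw0 hw0 (by have := @measurable_alF x u w0 w1; fun_prop) ?_
  intro t ht
  have h0 := alF_nonneg hx hu hw0 hw1 ht.le
  have h1 := alF_le hx hu hw0 hw1 ht.le
  have hw : 0 < w0 + t := by linarith
  rw [abs_of_nonneg (by positivity)]
  have h2 : (alF x u w0 w1 t) ^ 2 ≤ (1 / (w0 + t)) ^ 2 := pow_le_pow_left₀ h0 h1 2
  calc x * (alF x u w0 w1 t) ^ 2 ≤ x * (1 / (w0 + t)) ^ 2 := mul_le_mul_of_nonneg_left h2 hx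
    _ = x / ((w0 + t) * (w0 + t)) := by field_simp

theorem integral_alF_sq_nonneg (hx : 0 ≤ x) :
    0 ≤ ∫ t in Ioi (0:ℝ), x * (alF x u w0 w1 t) ^ 2 :=
  setIntegral_nonneg measurableSet_Ioi (fun _ _ => by positivity)

/-- `α(t) β(t ρ)` is integrable, `β = alF u x w1 w0`. -/
theorem integrableOn_alF_mul_beF (hx : 0 ≤ x) (hu : 0 ≤ u) (hw0 : 0 < w0) (hw1 : 0 < w1)
    {ρ : ℝ} (hρ : 0 < ρ) :
    IntegrableOn (fun t => alF x u w0 w1 t * alF u x w1 w0 (t * ρ)) (Ioi 0) := by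
  have hq : 0 < w1 / ρ := div_pos hw1 hρ
  refine integrableOn_of_bound (C := 1 / ρ) hw0 hq
    (by
      have h1 := @measurable_alF x u w0 w1
      have h2 := @measurable_alF u x w1 w0
      fun_prop) ?_
  intro t ht
  have a0 := alF_nonneg hx hu hw0 hw1 ht.le
  have a1 := alF_le hx hu hw0 hw1 ht.le
  have htρ : 0 ≤ t * ρ := by positivity
  have b0 := alF_nonneg hu hx hw1 hw0 htρ
  have b1 := alF_le hu hx hw1 hw0 htρ
  have hw : 0 < w0 + t := by linarith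
  have hw' : 0 < w1 + t * ρ := by positivity
  rw [abs_of_nonneg (mul_nonneg a0 b0)]
  calc alF x u w0 w1 t * alF u x w1 w0 (t * ρ) ≤ (1 / (w0 + t)) * (1 / (w1 + t * ρ)) :=
        mul_le_mul a1 b1 b0 (by positivity)
    _ = 1 / ρ / ((w0 + t) * (w1 / ρ + t)) := by
        field_simp

end Scalar

/-! ## Part 3: the tangent-plane inequality (B6 of #1627, without Milne) -/

section Tangent

theorem amgm_pair {p q p' q' r r' : ℝ} (hp : 0 ≤ p) (hq : 0 ≤ q) (hp' : 0 ≤ p') (hq' : 0 ≤ q')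
    (hr : 0 ≤ r) (hr' : 0 ≤ r') (h : r ^ 2 = p * q) (h' : r' ^ 2 = p' * q') :
    2 * (r * r') ≤ p * q' + p' * q := by
  have hS : 0 ≤ p * q' + p' * q := by positivity
  have h1 : (2 * (r * r')) ^ 2 = 4 * (p * q) * (p' * q') := by rw [← h, ← h']; ring
  have hsq : (2 * (r * r')) ^ 2 ≤ (p * q' + p' * q) ^ 2 := by
    rw [h1]; nlinarith [sq_nonneg (p * q' - p' * q)]
  exact (sq_le_sq₀ (by positivity) hS).1 hsq

theorem cs3 {p1 p2 p3 q1 q2 q3 r1 r2 r3 : ℝ}
    (hp1 : 0 ≤ p1) (hp2 : 0 ≤ p2) (hp3 : 0 ≤ p3) (hq1 : 0 ≤ q1) (hq2 : 0 ≤ q2) (hq3 : 0 ≤ q3)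
    (hr1 : 0 ≤ r1) (hr2 : 0 ≤ r2) (hr3 : 0 ≤ r3)
    (h1 : r1 ^ 2 = p1 * q1) (h2 : r2 ^ 2 = p2 * q2) (h3 : r3 ^ 2 = p3 * q3) :
    (r1 + r2 + r3) ^ 2 ≤ (p1 + p2 + p3) * (q1 + q2 + q3) := by
  have h12 := amgm_pair hp1 hq1 hp2 hq2 hr1 hr2 h1 h2
  have h13 := amgm_pair hp1 hq1 hp3 hq3 hr1 hr3 h1 h3
  have h23 := amgm_pair hp2 hq2 hp3 hq3 hr2 hr3 h2 h3
  calc (r1 + r2 + r3) ^ 2
      = r1 ^ 2 + r2 ^ 2 + r3 ^ 2 + 2 * (r1 * r2) + 2 * (r1 * r3) + 2 * (r2 * r3) := by ring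
    _ ≤ p1 * q1 + p2 * q2 + p3 * q3 + (p1 * q2 + p2 * q1) + (p1 * q3 + p3 * q1)
          + (p2 * q3 + p3 * q2) := by linarith
    _ = (p1 + p2 + p3) * (q1 + q2 + q3) := by ring

variable {x u w0 w1 : ℝ}

/-- Continued fraction for `β = alF u x w1 w0`:
`β(s) * (s + c3 + c2 s/(w0 (s + w0))) = 1`, `c3 = u + w1 + x w1/w0`, `c2 = x (w0 - w1)`. -/
theorem beF_mul (hx : 0 ≤ x) (hu : 0 ≤ u) (hw0 : 0 < w0) (hw1 : 0 < w1) {s : ℝ} (hs : 0 ≤ s) :
    alF u x w1 w0 s * (s + (u + w1 + x * w1 / w0) + x * (w0 - w1) * s / (w0 * (s + w0))) = 1 := by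
  have hD := (Dl_pos hu hx hw1 hw0 hs).ne'
  have hs0 : s + w0 ≠ 0 := by positivity
  have hD' : Dl u x w1 w0 s = u * (w0 + s) + x * (w1 + s) + (w1 + s) * (w0 + s) := by
    unfold Dl; ring
  unfold alF
  rw [div_mul_eq_mul_div, div_eq_one_iff_eq hD, hD']
  field_simp
  ring

/-- The tangent-plane bound: there are `lσ, lτ ≥ 0` with `lσ + lτ = β(t)` and
`ρ β(t ρ) ≤ lσ ρ + lτ` for all `ρ > 0` (case `w1 ≤ w0`). -/
theorem tangent_exists (hx : 0 ≤ x) (hu : 0 ≤ u) (hw0 : 0 < w0) (hw1 : 0 < w1) (hw : w1 ≤ w0)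
    {t : ℝ} (ht : 0 < t) :
    ∃ lσ lτ : ℝ, 0 ≤ lσ ∧ 0 ≤ lτ ∧ lσ + lτ = alF u x w1 w0 t ∧
      ∀ ρ : ℝ, 0 < ρ → ρ * alF u x w1 w0 (t * ρ) ≤ lσ * ρ + lτ := by
  set c3 := u + w1 + x * w1 / w0 with hc3
  set c2 := x * (w0 - w1) with hc2
  have hc3pos : 0 < c3 := by
    have : 0 ≤ x * w1 / w0 := by positivity
    rw [hc3]; linarith
  have hc2nn : 0 ≤ c2 := mul_nonneg hx (by linarith)
  set e := c2 * t / w0 with he
  have henn : 0 ≤ e := by positivity
  set D1 := t + c3 + e / (t + w0) with hD1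
  have hD1pos : 0 < D1 := by
    have : 0 ≤ e / (t + w0) := by positivity
    rw [hD1]; linarith
  have htw : 0 < t + w0 := by linarith
  -- β(t) = 1 / D1
  have hβt : alF u x w1 w0 t = 1 / D1 := by
    have h := beF_mul hx hu hw0 hw1 ht.le
    have h2 : t + c3 + c2 * t / (w0 * (t + w0)) = D1 := by
      rw [hD1, he]; field_simp
    rw [h2] at h
    exact eq_div_of_mul_eq hD1pos.ne' h
  refine ⟨(c3 + e * t / (t + w0) ^ 2) / D1 ^ 2, (t + e * w0 / (t + w0) ^ 2) / D1 ^ 2,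
    by positivity, by positivity, ?_, ?_⟩
  · rw [hβt, ← add_div]
    have h3 : c3 + e * t / (t + w0) ^ 2 + (t + e * w0 / (t + w0) ^ 2) = D1 := by
      rw [hD1]; field_simp; ring
    rw [h3]
    field_simp
  · intro ρ hρ
    have htρ : 0 < t * ρ := by positivity
    have htρw : 0 < t * ρ + w0 := by linarith
    set Dρ := t + c3 / ρ + e / (t * ρ + w0) with hDρ
    have hDρpos : 0 < Dρ := by
      have h1 : 0 < c3 / ρ := by positivity
      have h2 : 0 ≤ e / (t * ρ + w0) := by positivity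
      rw [hDρ]; linarith
    have hβ : ρ * alF u x w1 w0 (t * ρ) * Dρ = 1 := by
      have h := beF_mul hx hu hw0 hw1 htρ.le
      have h2 : t * ρ + c3 + c2 * (t * ρ) / (w0 * (t * ρ + w0)) = ρ * Dρ := by
        rw [hDρ, he]; field_simp
      rw [h2] at h
      linarith
    have hβ' : ρ * alF u x w1 w0 (t * ρ) = 1 / Dρ := eq_div_of_mul_eq hDρpos.ne' hβ
    set Qρ := t + c3 * ρ + e * (t * ρ + w0) / (t + w0) ^ 2 with hQρ
    have hcs : D1 ^ 2 ≤ Dρ * Qρ := by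
      have := cs3 (p1 := t) (p2 := c3 / ρ) (p3 := e / (t * ρ + w0))
        (q1 := t) (q2 := c3 * ρ) (q3 := e * (t * ρ + w0) / (t + w0) ^ 2)
        (r1 := t) (r2 := c3) (r3 := e / (t + w0))
        ht.le (by positivity) (by positivity) ht.le (by positivity) (by positivity)
        ht.le hc3pos.le (by positivity) (by ring) (by field_simp) (by field_simp)
      exact this
    have h4 : (c3 + e * t / (t + w0) ^ 2) / D1 ^ 2 * ρ + (t + e * w0 / (t + w0) ^ 2) / D1 ^ 2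
        = Qρ / D1 ^ 2 := by
      rw [hQρ]; field_simp; ring
    rw [h4, hβ', div_le_div_iff₀ hDρpos (by positivity)]
    linarith

/-- B6: the weighted sum over a sub-doubly-stochastic coupling. -/
theorem b6_sum (hx : 0 ≤ x) (hu : 0 ≤ u) (hw0 : 0 < w0) (hw1 : 0 < w1) (hw : w1 ≤ w0)
    {J K : Type*} [Fintype J] [Fintype K] (σ : J → ℝ) (τ : K → ℝ) (kap : J → K → ℝ)
    (hσ : ∀ j, 0 ≤ σ j) (hτ : ∀ k, 0 ≤ τ k) (hσs : ∑ j, σ j ≤ 1) (hτs : ∑ k, τ k ≤ 1)
    (hkap : ∀ j k, 0 ≤ kap j k) (hrow : ∀ j, ∑ k, kap j k ≤ 1) (hcol : ∀ k, ∑ j, kap j k ≤ 1)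
    {t : ℝ} (ht : 0 < t) :
    ∑ j, ∑ k, kap j k *
        (if σ j = 0 ∨ τ k = 0 then 0 else σ j * alF u x w1 w0 (t * (σ j / τ k)))
      ≤ alF u x w1 w0 t := by
  obtain ⟨lσ, lτ, hlσ, hlτ, hsum, htan⟩ := tangent_exists hx hu hw0 hw1 hw ht
  have hterm : ∀ j k, kap j k *
      (if σ j = 0 ∨ τ k = 0 then 0 else σ j * alF u x w1 w0 (t * (σ j / τ k)))
      ≤ lσ * (σ j * kap j k) + lτ * (τ k * kap j k) := by
    intro j k
    have hk := hkap j k
    have hs := hσ j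
    have ht' := hτ k
    by_cases h0 : σ j = 0 ∨ τ k = 0
    · rw [if_pos h0, mul_zero]; positivity
    · rw [if_neg h0]
      rw [not_or] at h0
      have hsp : 0 < σ j := lt_of_le_of_ne hs (Ne.symm h0.1)
      have htp : 0 < τ k := lt_of_le_of_ne ht' (Ne.symm h0.2)
      have h1 := htan (σ j / τ k) (div_pos hsp htp)
      have h2 : σ j * alF u x w1 w0 (t * (σ j / τ k)) ≤ lσ * σ j + lτ * τ k := by
        have h3 := mul_le_mul_of_nonneg_left h1 htp.le
        have e1 : τ k * (σ j / τ k * alF u x w1 w0 (t * (σ j / τ k)))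
            = σ j * alF u x w1 w0 (t * (σ j / τ k)) := by field_simp
        have e2 : τ k * (lσ * (σ j / τ k) + lτ) = lσ * σ j + lτ * τ k := by field_simp
        rw [e1, e2] at h3
        exact h3
      calc kap j k * (σ j * alF u x w1 w0 (t * (σ j / τ k)))
          ≤ kap j k * (lσ * σ j + lτ * τ k) := mul_le_mul_of_nonneg_left h2 hk
        _ = lσ * (σ j * kap j k) + lτ * (τ k * kap j k) := by ring
  calc ∑ j, ∑ k, kap j k *
        (if σ j = 0 ∨ τ k = 0 then 0 else σ j * alF u x w1 w0 (t * (σ j / τ k)))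
      ≤ ∑ j, ∑ k, (lσ * (σ j * kap j k) + lτ * (τ k * kap j k)) :=
        Finset.sum_le_sum (fun j _ => Finset.sum_le_sum (fun k _ => hterm j k))
    _ = lσ * ∑ j, σ j * ∑ k, kap j k + lτ * ∑ k, τ k * ∑ j, kap j k := by
        simp only [Finset.sum_add_distrib, ← Finset.mul_sum]
        congr 1
        rw [Finset.sum_comm]
        simp only [← Finset.mul_sum]
    _ ≤ lσ * ∑ j, σ j * 1 + lτ * ∑ k, τ k * 1 := by
        apply add_le_add
        · exact mul_le_mul_of_nonneg_left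
            (Finset.sum_le_sum (fun j _ => mul_le_mul_of_nonneg_left (hrow j) (hσ j))) hlσ
        · exact mul_le_mul_of_nonneg_left
            (Finset.sum_le_sum (fun k _ => mul_le_mul_of_nonneg_left (hcol k) (hτ k))) hlτ
    _ ≤ lσ * 1 + lτ * 1 := by
        have e1 : ∑ j, σ j * 1 = ∑ j, σ j := by simp
        have e2 : ∑ k, τ k * 1 = ∑ k, τ k := by simp
        rw [e1, e2]
        exact add_le_add (mul_le_mul_of_nonneg_left hσs hlσ) (mul_le_mul_of_nonneg_left hτs hlτ)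
    _ = alF u x w1 w0 t := by rw [mul_one, mul_one, hsum]

end Tangent

/-! ## Part 4: the per-index trial terms and their integrals -/

section PerIndex

/-- trial coefficient `al_j` (resp. `be_k` with swapped parameters). -/
noncomputable def coef (x u w0 w1 ξ s : ℝ) : ℝ :=
  if ξ = 0 then 0 else x * alF x u w0 w1 (s / (ξ / x)) / ξ

/-- the per-index contribution of the trial value, minus `ξ/(1+s)`. -/
noncomputable def Tfun (x u w0 w1 ξ P s : ℝ) : ℝ :=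
  if ξ = 0 then 0 else
    GaF x u w0 w1 (s / (ξ / x)) + ξ * (1 / (ξ + s) - 1 / (1 + s))
      - (P / (ξ / x)) * (x * (alF x u w0 w1 (s / (ξ / x))) ^ 2)

/-- the cross term. -/
noncomputable def Cfun (x u w0 w1 ξ υ s : ℝ) : ℝ :=
  if ξ = 0 ∨ υ = 0 then 0 else alF x u w0 w1 (s / (ξ / x)) * alF u x w1 w0 (s / (υ / u))

variable {x u w0 w1 : ℝ}

theorem trial_term {ξ P s : ℝ} (hξ : 0 ≤ ξ) (hxξ : ξ ≠ 0 → 0 < x) (hs : 0 < s) :
    2 * (coef x u w0 w1 ξ s * ξ) - coef x u w0 w1 ξ s ^ 2 * ξ * (ξ + s + P)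
      = Tfun x u w0 w1 ξ P s + ξ / (1 + s) := by
  by_cases h : ξ = 0
  · simp [coef, Tfun, h]
  · have hx := hxξ h
    have hξp : 0 < ξ := lt_of_le_of_ne hξ (Ne.symm h)
    have h1 : ξ + s ≠ 0 := by positivity
    have h2 : (1:ℝ) + s ≠ 0 := by positivity
    have h3 : x + s / (ξ / x) ≠ 0 := by positivity
    have e3 : x / (x + s / (ξ / x)) = ξ / (ξ + s) := by
      field_simp
    unfold coef Tfun GaF
    rw [if_neg h, if_neg h, e3]
    generalize alF x u w0 w1 (s / (ξ / x)) = A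
    field_simp
    ring

theorem cross_term {ξ υ κ s : ℝ} :
    coef x u w0 w1 ξ s * coef u x w1 w0 υ s * (ξ * υ * κ)
      = x * u * (κ * Cfun x u w0 w1 ξ υ s) := by
  by_cases h : ξ = 0
  · simp [coef, Cfun, h]
  · by_cases h' : υ = 0
    · simp [coef, Cfun, h']
    · unfold coef Cfun
      rw [if_neg h, if_neg h', if_neg (by tauto)]
      field_simp

theorem integrableOn_Tfun (hx : 0 ≤ x) (hu : 0 ≤ u) (hw0 : 0 < w0) (hw1 : 0 < w1)
    {ξ P : ℝ} (hξ : 0 ≤ ξ) (hxξ : ξ ≠ 0 → 0 < x) :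
    IntegrableOn (Tfun x u w0 w1 ξ P) (Ioi 0) := by
  by_cases h : ξ = 0
  · have : Tfun x u w0 w1 ξ P = fun _ => 0 := by funext s; simp [Tfun, h]
    rw [this]; exact integrableOn_zero
  · have hξp : 0 < ξ := lt_of_le_of_ne hξ (Ne.symm h)
    have hσ : 0 < ξ / x := div_pos hξp (hxξ h)
    have f1 := integrableOn_comp_div hσ (integrableOn_GaF hx hu hw0 hw1)
    have f2 := (integrableOn_inv_sub_inv hξp).const_mul ξ
    have f3 := (integrableOn_comp_div hσ (integrableOn_alF_sq hx hu hw0 hw1)).const_mul (P / (ξ / x))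
    have := (f1.add f2).sub f3
    refine this.congr_fun (fun s _ => ?_) measurableSet_Ioi
    simp [Tfun, h]

theorem integral_Tfun (hx : 0 ≤ x) (hu : 0 ≤ u) (hw0 : 0 < w0) (hw1 : 0 < w1)
    {ξ P : ℝ} (hξ : 0 ≤ ξ) (hxξ : ξ ≠ 0 → 0 < x) :
    (∫ s in Ioi (0:ℝ), Tfun x u w0 w1 ξ P s)
      = (if ξ = 0 then 0 else
          (ξ / x) * (∫ t in Ioi (0:ℝ), GaF x u w0 w1 t)
            - P * ∫ t in Ioi (0:ℝ), x * (alF x u w0 w1 t) ^ 2)
        + Real.negMulLog ξ := by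
  by_cases h : ξ = 0
  · have : Tfun x u w0 w1 ξ P = fun _ => 0 := by funext s; simp [Tfun, h]
    rw [this, if_pos h, h]; simp
  · have hξp : 0 < ξ := lt_of_le_of_ne hξ (Ne.symm h)
    have hσ : 0 < ξ / x := div_pos hξp (hxξ h)
    have f1 := integrableOn_comp_div hσ (integrableOn_GaF hx hu hw0 hw1)
    have f2 := (integrableOn_inv_sub_inv hξp).const_mul ξ
    have f3 := (integrableOn_comp_div hσ (integrableOn_alF_sq hx hu hw0 hw1)).const_mul (P / (ξ / x))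
    have e : (∫ s in Ioi (0:ℝ), Tfun x u w0 w1 ξ P s)
        = ∫ s in Ioi (0:ℝ), ((GaF x u w0 w1 (s / (ξ / x)) + ξ * (1 / (ξ + s) - 1 / (1 + s)))
            - (P / (ξ / x)) * (x * (alF x u w0 w1 (s / (ξ / x))) ^ 2)) := by
      refine setIntegral_congr_fun measurableSet_Ioi (fun s _ => ?_)
      simp [Tfun, h]
    have s1 : (∫ s in Ioi (0:ℝ), ((GaF x u w0 w1 (s / (ξ / x)) + ξ * (1 / (ξ + s) - 1 / (1 + s)))
            - (P / (ξ / x)) * (x * (alF x u w0 w1 (s / (ξ / x))) ^ 2)))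
        = (∫ s in Ioi (0:ℝ), (GaF x u w0 w1 (s / (ξ / x)) + ξ * (1 / (ξ + s) - 1 / (1 + s))))
          - ∫ s in Ioi (0:ℝ), (P / (ξ / x)) * (x * (alF x u w0 w1 (s / (ξ / x))) ^ 2) :=
      integral_sub (f1.add f2) f3
    have s2 : (∫ s in Ioi (0:ℝ), (GaF x u w0 w1 (s / (ξ / x)) + ξ * (1 / (ξ + s) - 1 / (1 + s))))
        = (∫ s in Ioi (0:ℝ), GaF x u w0 w1 (s / (ξ / x)))
          + ∫ s in Ioi (0:ℝ), ξ * (1 / (ξ + s) - 1 / (1 + s)) :=
      integral_add f1 f2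
    have s3 : (∫ s in Ioi (0:ℝ), GaF x u w0 w1 (s / (ξ / x)))
        = (ξ / x) * ∫ t in Ioi (0:ℝ), GaF x u w0 w1 t := integral_comp_div hσ
    have s4 : (∫ s in Ioi (0:ℝ), ξ * (1 / (ξ + s) - 1 / (1 + s))) = ξ * (- Real.log ξ) := by
      rw [integral_const_mul, integral_inv_sub_inv hξp]
    have s5 : (∫ s in Ioi (0:ℝ), (P / (ξ / x)) * (x * (alF x u w0 w1 (s / (ξ / x))) ^ 2))
        = (P / (ξ / x)) * ((ξ / x) * ∫ t in Ioi (0:ℝ), x * (alF x u w0 w1 t) ^ 2) := by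
      rw [integral_const_mul]
      congr 1
      exact integral_comp_div (f := fun t => x * (alF x u w0 w1 t) ^ 2) hσ
    rw [e, s1, s2, s3, s4, s5, if_neg h]
    have hσ' := hσ.ne'
    have e5 : P / (ξ / x) * ((ξ / x) * ∫ t in Ioi (0:ℝ), x * (alF x u w0 w1 t) ^ 2)
        = P * ∫ t in Ioi (0:ℝ), x * (alF x u w0 w1 t) ^ 2 := by
      rw [← mul_assoc, div_mul_cancel₀ P hσ']
    rw [e5]
    unfold Real.negMulLog
    ring

theorem integrableOn_alF_mul_phi (hx : 0 ≤ x) (hu : 0 ≤ u) (hw0 : 0 < w0) (hw1 : 0 < w1)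
    {ξ υ : ℝ} (hξ : 0 ≤ ξ) (hυ : 0 ≤ υ) (hxξ : ξ ≠ 0 → 0 < x) (huυ : υ ≠ 0 → 0 < u) :
    IntegrableOn (fun t => alF x u w0 w1 t *
      (if ξ = 0 ∨ υ = 0 then 0 else (ξ / x) * alF u x w1 w0 (t * ((ξ / x) / (υ / u))))) (Ioi 0) := by
  by_cases h : ξ = 0 ∨ υ = 0
  · simp only [if_pos h, mul_zero]; exact integrableOn_zero
  · simp only [if_neg h]
    rw [not_or] at h
    have hξp : 0 < ξ := lt_of_le_of_ne hξ (Ne.symm h.1)
    have hυp : 0 < υ := lt_of_le_of_ne hυ (Ne.symm h.2)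
    have hσ : 0 < ξ / x := div_pos hξp (hxξ h.1)
    have hτ : 0 < υ / u := div_pos hυp (huυ h.2)
    have := (integrableOn_alF_mul_beF hx hu hw0 hw1 (div_pos hσ hτ)).const_mul (ξ / x)
    refine IntegrableOn.congr_fun this (fun t _ => ?_) measurableSet_Ioi
    ring

theorem integrableOn_Cfun (hx : 0 ≤ x) (hu : 0 ≤ u) (hw0 : 0 < w0) (hw1 : 0 < w1)
    {ξ υ : ℝ} (hξ : 0 ≤ ξ) (hυ : 0 ≤ υ) (hxξ : ξ ≠ 0 → 0 < x) (huυ : υ ≠ 0 → 0 < u) :
    IntegrableOn (Cfun x u w0 w1 ξ υ) (Ioi 0) := by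
  by_cases h : ξ = 0 ∨ υ = 0
  · have : Cfun x u w0 w1 ξ υ = fun _ => 0 := by funext s; simp [Cfun, h]
    rw [this]; exact integrableOn_zero
  · have h' := h
    rw [not_or] at h
    have hξp : 0 < ξ := lt_of_le_of_ne hξ (Ne.symm h.1)
    have hυp : 0 < υ := lt_of_le_of_ne hυ (Ne.symm h.2)
    have hσ : 0 < ξ / x := div_pos hξp (hxξ h.1)
    have hτ : 0 < υ / u := div_pos hυp (huυ h.2)
    have hx' : x ≠ 0 := (hxξ h.1).ne'
    have hu' : u ≠ 0 := (huυ h.2).ne'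
    have := integrableOn_comp_div hσ (integrableOn_alF_mul_beF hx hu hw0 hw1 (div_pos hσ hτ))
    refine IntegrableOn.congr_fun this (fun s _ => ?_) measurableSet_Ioi
    have e : s / (ξ / x) * (ξ / x / (υ / u)) = s / (υ / u) := by
      field_simp
    simp only [Cfun, if_neg h', e]

theorem integral_Cfun (hx : 0 ≤ x) (hu : 0 ≤ u) (hw0 : 0 < w0) (hw1 : 0 < w1)
    {ξ υ : ℝ} (hξ : 0 ≤ ξ) (hυ : 0 ≤ υ) (hxξ : ξ ≠ 0 → 0 < x) (huυ : υ ≠ 0 → 0 < u) :
    (∫ s in Ioi (0:ℝ), Cfun x u w0 w1 ξ υ s)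
      = ∫ t in Ioi (0:ℝ), alF x u w0 w1 t *
          (if ξ = 0 ∨ υ = 0 then 0 else (ξ / x) * alF u x w1 w0 (t * ((ξ / x) / (υ / u)))) := by
  by_cases h : ξ = 0 ∨ υ = 0
  · have : Cfun x u w0 w1 ξ υ = fun _ => 0 := by funext s; simp [Cfun, h]
    rw [this]; simp [h]
  · have h' := h
    rw [not_or] at h
    have hξp : 0 < ξ := lt_of_le_of_ne hξ (Ne.symm h.1)
    have hυp : 0 < υ := lt_of_le_of_ne hυ (Ne.symm h.2)
    have hσ : 0 < ξ / x := div_pos hξp (hxξ h.1)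
    have hτ : 0 < υ / u := div_pos hυp (huυ h.2)
    have hx' : x ≠ 0 := (hxξ h.1).ne'
    have hu' : u ≠ 0 := (huυ h.2).ne'
    calc (∫ s in Ioi (0:ℝ), Cfun x u w0 w1 ξ υ s)
        = ∫ s in Ioi (0:ℝ), alF x u w0 w1 (s / (ξ / x)) *
            alF u x w1 w0 (s / (ξ / x) * ((ξ / x) / (υ / u))) := by
          refine setIntegral_congr_fun measurableSet_Ioi (fun s _ => ?_)
          have e : s / (ξ / x) * (ξ / x / (υ / u)) = s / (υ / u) := by
            field_simp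
          simp only [Cfun, if_neg h', e]
      _ = (ξ / x) * ∫ t in Ioi (0:ℝ), alF x u w0 w1 t * alF u x w1 w0 (t * ((ξ / x) / (υ / u))) :=
          integral_comp_div
            (f := fun t => alF x u w0 w1 t * alF u x w1 w0 (t * ((ξ / x) / (υ / u)))) hσ
      _ = ∫ t in Ioi (0:ℝ), (ξ / x) *
            (alF x u w0 w1 t * alF u x w1 w0 (t * ((ξ / x) / (υ / u)))) :=
          (integral_const_mul _ _).symm
      _ = _ := by
          refine setIntegral_congr_fun measurableSet_Ioi (fun t _ => ?_)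
          simp only [if_neg h']
          ring

/-- `x (1/(x+t) - 1/(1+t))` integrates to `negMulLog x` (also for `x = 0`). -/
theorem integrableOn_mul_inv_sub_inv {y : ℝ} (hy : 0 ≤ y) :
    IntegrableOn (fun t : ℝ => y * (1 / (y + t) - 1 / (1 + t))) (Ioi 0) := by
  rcases hy.eq_or_lt with h | h
  · subst h; simp only [zero_mul]; exact integrableOn_zero
  · exact (integrableOn_inv_sub_inv h).const_mul y

theorem integral_mul_inv_sub_inv {y : ℝ} (hy : 0 ≤ y) :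
    (∫ t in Ioi (0:ℝ), y * (1 / (y + t) - 1 / (1 + t))) = Real.negMulLog y := by
  rcases hy.eq_or_lt with h | h
  · subst h; simp
  · rw [integral_const_mul, integral_inv_sub_inv h]; unfold Real.negMulLog; ring

end PerIndex

/-! ## Part 5: the classical inequality (`classical_der2` of #1656) -/

section Classical

/-- `∫₀^∞ (vᵀ(m+s)⁻¹v - (x+u)/(1+s)) ds = - vᵀ log(m) v`; text of #1656. -/
noncomputable def scalarLog (x u w0 w1 : ℝ) : ℝ :=
  ∫ s in Set.Ioi (0:ℝ), (rF x u w0 w1 s - (x + u) / (1 + s))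

theorem rF_symm (x u w0 w1 s : ℝ) : rF u x w1 w0 s = rF x u w0 w1 s := by
  unfold rF
  have h1 : u * (w0 + s) + x * (w1 + s) = x * (w1 + s) + u * (w0 + s) := by ring
  have h2 : (u + w1 + s) * (x + w0 + s) - u * x = (x + w0 + s) * (u + w1 + s) - x * u := by ring
  rw [h1, h2]

theorem scalarLog_symm (x u w0 w1 : ℝ) : scalarLog u x w1 w0 = scalarLog x u w0 w1 := by
  unfold scalarLog
  refine setIntegral_congr_fun measurableSet_Ioi (fun s _ => ?_)
  show rF u x w1 w0 s - (u + x) / (1 + s) = rF x u w0 w1 s - (x + u) / (1 + s)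
  rw [rF_symm, add_comm u x]

variable {x u w0 w1 : ℝ}

theorem rF_decomp (hx : 0 ≤ x) (hu : 0 ≤ u) (hw0 : 0 < w0) (hw1 : 0 < w1) {t : ℝ} (ht : 0 < t) :
    rF x u w0 w1 t - (x + u) / (1 + t)
      = GaF x u w0 w1 t + GaF u x w1 w0 t - w0 * (x * (alF x u w0 w1 t) ^ 2)
        - w1 * (u * (alF u x w1 w0 t) ^ 2) - 2 * x * u * (alF x u w0 w1 t * alF u x w1 w0 t)
        + x * (1 / (x + t) - 1 / (1 + t)) + u * (1 / (u + t) - 1 / (1 + t)) := by
  have hD1 := (Dl_pos hx hu hw0 hw1 ht.le).ne'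
  have hxt : x + t ≠ 0 := by positivity
  have hut : u + t ≠ 0 := by positivity
  have h1t : (1:ℝ) + t ≠ 0 := by positivity
  have hr : rF x u w0 w1 t = (x * (w1 + t) + u * (w0 + t)) / Dl x u w0 w1 t := rfl
  have hD' : Dl x u w0 w1 t = x * (w1 + t) + u * (w0 + t) + (w0 + t) * (w1 + t) := by
    unfold Dl; ring
  rw [hr]
  unfold GaF alF
  rw [Dl_symm x u w0 w1 t]
  rw [hD'] at hD1 ⊢
  field_simp
  ring

theorem integral_lin7 {μ : Measure ℝ} {f1 f2 f3 f4 f5 f6 f7 : ℝ → ℝ}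
    (h1 : Integrable f1 μ) (h2 : Integrable f2 μ) (h3 : Integrable f3 μ) (h4 : Integrable f4 μ)
    (h5 : Integrable f5 μ) (h6 : Integrable f6 μ) (h7 : Integrable f7 μ) :
    (∫ a, (f1 a + f2 a - f3 a - f4 a - f5 a + f6 a + f7 a) ∂μ)
      = (∫ a, f1 a ∂μ) + (∫ a, f2 a ∂μ) - (∫ a, f3 a ∂μ) - (∫ a, f4 a ∂μ) - (∫ a, f5 a ∂μ)
        + (∫ a, f6 a ∂μ) + (∫ a, f7 a ∂μ) := by
  have e1 : (∫ a, (f1 a + f2 a - f3 a - f4 a - f5 a + f6 a + f7 a) ∂μ)
      = (∫ a, (f1 a + f2 a - f3 a - f4 a - f5 a + f6 a) ∂μ) + ∫ a, f7 a ∂μ :=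
    integral_add (((((h1.add h2).sub h3).sub h4).sub h5).add h6) h7
  have e2 : (∫ a, (f1 a + f2 a - f3 a - f4 a - f5 a + f6 a) ∂μ)
      = (∫ a, (f1 a + f2 a - f3 a - f4 a - f5 a) ∂μ) + ∫ a, f6 a ∂μ :=
    integral_add ((((h1.add h2).sub h3).sub h4).sub h5) h6
  have e3 : (∫ a, (f1 a + f2 a - f3 a - f4 a - f5 a) ∂μ)
      = (∫ a, (f1 a + f2 a - f3 a - f4 a) ∂μ) - ∫ a, f5 a ∂μ :=
    integral_sub (((h1.add h2).sub h3).sub h4) h5
  have e4 : (∫ a, (f1 a + f2 a - f3 a - f4 a) ∂μ)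
      = (∫ a, (f1 a + f2 a - f3 a) ∂μ) - ∫ a, f4 a ∂μ :=
    integral_sub ((h1.add h2).sub h3) h4
  have e5 : (∫ a, (f1 a + f2 a - f3 a) ∂μ) = (∫ a, (f1 a + f2 a) ∂μ) - ∫ a, f3 a ∂μ :=
    integral_sub (h1.add h2) h3
  have e6 : (∫ a, (f1 a + f2 a) ∂μ) = (∫ a, f1 a ∂μ) + ∫ a, f2 a ∂μ := integral_add h1 h2
  rw [e1, e2, e3, e4, e5, e6]

theorem integrableOn_alF_mul_alF (hx : 0 ≤ x) (hu : 0 ≤ u) (hw0 : 0 < w0) (hw1 : 0 < w1) :
    IntegrableOn (fun t => alF x u w0 w1 t * alF u x w1 w0 t) (Ioi 0) := by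
  have := integrableOn_alF_mul_beF hx hu hw0 hw1 (ρ := 1) one_pos
  simpa using this

theorem scalarLog_eq (hx : 0 ≤ x) (hu : 0 ≤ u) (hw0 : 0 < w0) (hw1 : 0 < w1) :
    scalarLog x u w0 w1
      = (∫ t in Ioi (0:ℝ), GaF x u w0 w1 t) + (∫ t in Ioi (0:ℝ), GaF u x w1 w0 t)
        - w0 * (∫ t in Ioi (0:ℝ), x * (alF x u w0 w1 t) ^ 2)
        - w1 * (∫ t in Ioi (0:ℝ), u * (alF u x w1 w0 t) ^ 2)
        - 2 * x * u * (∫ t in Ioi (0:ℝ), alF x u w0 w1 t * alF u x w1 w0 t)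
        + Real.negMulLog x + Real.negMulLog u := by
  have i1 := integrableOn_GaF hx hu hw0 hw1
  have i2 := integrableOn_GaF hu hx hw1 hw0
  have i3 := (integrableOn_alF_sq hx hu hw0 hw1).const_mul w0
  have i4 := (integrableOn_alF_sq hu hx hw1 hw0).const_mul w1
  have i5 := (integrableOn_alF_mul_alF hx hu hw0 hw1).const_mul (2 * x * u)
  have i6 := integrableOn_mul_inv_sub_inv hx
  have i7 := integrableOn_mul_inv_sub_inv hu
  unfold scalarLog
  rw [setIntegral_congr_fun measurableSet_Ioi (fun t ht => rF_decomp hx hu hw0 hw1 ht)]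
  have := integral_lin7 i1 i2 i3 i4 i5 i6 i7
  have c3 : (∫ a in Ioi (0:ℝ), w0 * (x * (alF x u w0 w1 a) ^ 2))
      = w0 * ∫ a in Ioi (0:ℝ), x * (alF x u w0 w1 a) ^ 2 := integral_const_mul _ _
  have c4 : (∫ a in Ioi (0:ℝ), w1 * (u * (alF u x w1 w0 a) ^ 2))
      = w1 * ∫ a in Ioi (0:ℝ), u * (alF u x w1 w0 a) ^ 2 := integral_const_mul _ _
  have c5 : (∫ a in Ioi (0:ℝ), 2 * x * u * (alF x u w0 w1 a * alF u x w1 w0 a))
      = 2 * x * u * ∫ a in Ioi (0:ℝ), alF x u w0 w1 a * alF u x w1 w0 a := integral_const_mul _ _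
  rw [this, c3, c4, c5, integral_mul_inv_sub_inv hx, integral_mul_inv_sub_inv hu]

theorem div_eq_zero_iff' {ξ x : ℝ} (hxξ : ξ ≠ 0 → 0 < x) : ξ / x = 0 ↔ ξ = 0 := by
  constructor
  · intro h
    by_contra h'
    rcases div_eq_zero_iff.1 h with h1 | h1
    · exact h' h1
    · exact (hxξ h').ne' h1
  · intro h; rw [h, zero_div]

theorem classical_der2_aux {I J K : Type*} [Fintype I] [Fintype J] [Fintype K]
    (c mu : I → ℝ) (hmu : ∀ i, 0 < mu i)
    (xi P : J → ℝ) (ups Q : K → ℝ) (kap : J → K → ℝ)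
    (hxi : ∀ j, 0 ≤ xi j) (hups : ∀ k, 0 ≤ ups k) (hP : ∀ j, 0 ≤ P j) (hQ : ∀ k, 0 ≤ Q k)
    (hkap : ∀ j k, 0 ≤ kap j k) (hrow : ∀ j, ∑ k, kap j k ≤ 1) (hcol : ∀ k, ∑ j, kap j k ≤ 1)
    (w0 w1 : ℝ) (hw0 : 0 < w0) (hw1 : 0 < w1) (hw : w1 ≤ w0)
    (hPs : ∑ j, P j ≤ w0) (hQs : ∑ k, Q k ≤ w1)
    (hcsum : ∑ i, c i = ∑ j, xi j + ∑ k, ups k)
    (htrial : ∀ s : ℝ, 0 < s → ∀ (al : J → ℝ) (be : K → ℝ),
        2 * ∑ j, al j * xi j + 2 * ∑ k, be k * ups k
          - ∑ j, al j ^ 2 * xi j * (xi j + s + P j) - ∑ k, be k ^ 2 * ups k * (ups k + s + Q k)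
          - 2 * ∑ j, ∑ k, al j * be k * (xi j * ups k * kap j k)
        ≤ ∑ i, c i / (mu i + s)) :
    (∑ j, Real.negMulLog (xi j)) + (∑ k, Real.negMulLog (ups k)) - Real.negMulLog (∑ j, xi j)
        - Real.negMulLog (∑ k, ups k) + scalarLog (∑ j, xi j) (∑ k, ups k) w0 w1
      ≤ - ∑ i, c i * Real.log (mu i) := by
  classical
  set x := ∑ j, xi j with hxdef
  set u := ∑ k, ups k with hudef
  have hx : 0 ≤ x := Finset.sum_nonneg (fun j _ => hxi j)
  have hu : 0 ≤ u := Finset.sum_nonneg (fun k _ => hups k)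
  have hxξ : ∀ j, xi j ≠ 0 → 0 < x := fun j h =>
    lt_of_lt_of_le (lt_of_le_of_ne (hxi j) (Ne.symm h))
      (Finset.single_le_sum (fun i _ => hxi i) (Finset.mem_univ j))
  have huυ : ∀ k, ups k ≠ 0 → 0 < u := fun k h =>
    lt_of_lt_of_le (lt_of_le_of_ne (hups k) (Ne.symm h))
      (Finset.single_le_sum (fun i _ => hups i) (Finset.mem_univ k))
  set IGa := ∫ t in Ioi (0:ℝ), GaF x u w0 w1 t with hIGa
  set IGb := ∫ t in Ioi (0:ℝ), GaF u x w1 w0 t with hIGb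
  set IA2 := ∫ t in Ioi (0:ℝ), x * (alF x u w0 w1 t) ^ 2 with hIA2
  set IB2 := ∫ t in Ioi (0:ℝ), u * (alF u x w1 w0 t) ^ 2 with hIB2
  set IAB := ∫ t in Ioi (0:ℝ), alF x u w0 w1 t * alF u x w1 w0 t with hIAB
  have hIGa0 : IGa ≤ 0 := integral_GaF_nonpos hx hu hw0 hw1
  have hIGb0 : IGb ≤ 0 := integral_GaF_nonpos hu hx hw1 hw0
  have hIA20 : 0 ≤ IA2 := integral_alF_sq_nonneg hx
  have hIB20 : 0 ≤ IB2 := integral_alF_sq_nonneg hu
  -- pointwise bound
  have hpt : ∀ s ∈ Ioi (0:ℝ),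
      (∑ j, Tfun x u w0 w1 (xi j) (P j) s) + (∑ k, Tfun u x w1 w0 (ups k) (Q k) s)
        - 2 * x * u * ∑ j, ∑ k, kap j k * Cfun x u w0 w1 (xi j) (ups k) s
      ≤ ∑ i, c i * (1 / (mu i + s) - 1 / (1 + s)) := by
    intro s hs
    have hs0 : (0:ℝ) < s := hs
    have h := htrial s hs0 (fun j => coef x u w0 w1 (xi j) s) (fun k => coef u x w1 w0 (ups k) s)
    beta_reduce at h
    have hJ : 2 * ∑ j, coef x u w0 w1 (xi j) s * xi j
        - ∑ j, coef x u w0 w1 (xi j) s ^ 2 * xi j * (xi j + s + P j)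
        = (∑ j, Tfun x u w0 w1 (xi j) (P j) s) + x / (1 + s) := by
      rw [Finset.mul_sum, ← Finset.sum_sub_distrib,
        Finset.sum_congr rfl (fun j _ => trial_term (hxi j) (hxξ j) hs0),
        Finset.sum_add_distrib, ← Finset.sum_div]
    have hK : 2 * ∑ k, coef u x w1 w0 (ups k) s * ups k
        - ∑ k, coef u x w1 w0 (ups k) s ^ 2 * ups k * (ups k + s + Q k)
        = (∑ k, Tfun u x w1 w0 (ups k) (Q k) s) + u / (1 + s) := by
      rw [Finset.mul_sum, ← Finset.sum_sub_distrib,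
        Finset.sum_congr rfl (fun k _ => trial_term (hups k) (huυ k) hs0),
        Finset.sum_add_distrib, ← Finset.sum_div]
    have hC : 2 * ∑ j, ∑ k, coef x u w0 w1 (xi j) s * coef u x w1 w0 (ups k) s
          * (xi j * ups k * kap j k)
        = 2 * x * u * ∑ j, ∑ k, kap j k * Cfun x u w0 w1 (xi j) (ups k) s := by
      rw [mul_assoc 2 x u, mul_assoc 2 (x * u)]
      congr 1
      simp only [Finset.mul_sum]
      exact Finset.sum_congr rfl (fun j _ => Finset.sum_congr rfl (fun k _ => cross_term))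
    have hR : ∑ i, c i * (1 / (mu i + s) - 1 / (1 + s))
        = ∑ i, c i / (mu i + s) - (x / (1 + s) + u / (1 + s)) := by
      rw [← add_div, ← hcsum, Finset.sum_div, ← Finset.sum_sub_distrib]
      exact Finset.sum_congr rfl (fun i _ => by ring)
    rw [hR]
    linarith
  -- integrability
  have hTj : ∀ j, IntegrableOn (Tfun x u w0 w1 (xi j) (P j)) (Ioi 0) := fun j =>
    integrableOn_Tfun hx hu hw0 hw1 (hxi j) (hxξ j)
  have hTk : ∀ k, IntegrableOn (Tfun u x w1 w0 (ups k) (Q k)) (Ioi 0) := fun k =>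
    integrableOn_Tfun hu hx hw1 hw0 (hups k) (huυ k)
  have hCjk : ∀ j k, IntegrableOn (Cfun x u w0 w1 (xi j) (ups k)) (Ioi 0) := fun j k =>
    integrableOn_Cfun hx hu hw0 hw1 (hxi j) (hups k) (hxξ j) (huυ k)
  have hA : IntegrableOn (fun s => ∑ j, Tfun x u w0 w1 (xi j) (P j) s) (Ioi 0) :=
    integrable_finset_sum _ (fun j _ => hTj j)
  have hB : IntegrableOn (fun s => ∑ k, Tfun u x w1 w0 (ups k) (Q k) s) (Ioi 0) :=
    integrable_finset_sum _ (fun k _ => hTk k)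
  have hCC : IntegrableOn
      (fun s => ∑ j, ∑ k, kap j k * Cfun x u w0 w1 (xi j) (ups k) s) (Ioi 0) :=
    integrable_finset_sum _ (fun j _ => integrable_finset_sum _
      (fun k _ => (hCjk j k).const_mul (kap j k)))
  have hVint : IntegrableOn (fun s =>
      (∑ j, Tfun x u w0 w1 (xi j) (P j) s) + (∑ k, Tfun u x w1 w0 (ups k) (Q k) s)
        - 2 * x * u * ∑ j, ∑ k, kap j k * Cfun x u w0 w1 (xi j) (ups k) s) (Ioi 0) :=
    (hA.add hB).sub (hCC.const_mul (2 * x * u))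
  have hRi : ∀ i, IntegrableOn (fun s : ℝ => c i * (1 / (mu i + s) - 1 / (1 + s))) (Ioi 0) :=
    fun i => (integrableOn_inv_sub_inv (hmu i)).const_mul (c i)
  have hRint : IntegrableOn (fun s : ℝ => ∑ i, c i * (1 / (mu i + s) - 1 / (1 + s))) (Ioi 0) :=
    integrable_finset_sum _ (fun i _ => hRi i)
  -- values
  have hRval : (∫ s in Ioi (0:ℝ), ∑ i, c i * (1 / (mu i + s) - 1 / (1 + s)))
      = - ∑ i, c i * Real.log (mu i) := by
    rw [integral_finset_sum _ (fun i _ => hRi i), ← Finset.sum_neg_distrib]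
    refine Finset.sum_congr rfl (fun i _ => ?_)
    rw [integral_const_mul, integral_inv_sub_inv (hmu i)]
    ring
  have hVval : (∫ s in Ioi (0:ℝ),
      ((∑ j, Tfun x u w0 w1 (xi j) (P j) s) + (∑ k, Tfun u x w1 w0 (ups k) (Q k) s)
        - 2 * x * u * ∑ j, ∑ k, kap j k * Cfun x u w0 w1 (xi j) (ups k) s))
      = (∑ j, ∫ s in Ioi (0:ℝ), Tfun x u w0 w1 (xi j) (P j) s)
        + (∑ k, ∫ s in Ioi (0:ℝ), Tfun u x w1 w0 (ups k) (Q k) s)
        - 2 * x * u * ∑ j, ∑ k, kap j k * ∫ s in Ioi (0:ℝ), Cfun x u w0 w1 (xi j) (ups k) s := by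
    have e1 : (∫ s in Ioi (0:ℝ),
        ((∑ j, Tfun x u w0 w1 (xi j) (P j) s) + (∑ k, Tfun u x w1 w0 (ups k) (Q k) s)
          - 2 * x * u * ∑ j, ∑ k, kap j k * Cfun x u w0 w1 (xi j) (ups k) s))
        = (∫ s in Ioi (0:ℝ),
            ((∑ j, Tfun x u w0 w1 (xi j) (P j) s) + (∑ k, Tfun u x w1 w0 (ups k) (Q k) s)))
          - ∫ s in Ioi (0:ℝ), 2 * x * u * ∑ j, ∑ k, kap j k * Cfun x u w0 w1 (xi j) (ups k) s :=
      integral_sub (hA.add hB) (hCC.const_mul (2 * x * u))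
    have e2 : (∫ s in Ioi (0:ℝ),
            ((∑ j, Tfun x u w0 w1 (xi j) (P j) s) + (∑ k, Tfun u x w1 w0 (ups k) (Q k) s)))
        = (∫ s in Ioi (0:ℝ), ∑ j, Tfun x u w0 w1 (xi j) (P j) s)
          + ∫ s in Ioi (0:ℝ), ∑ k, Tfun u x w1 w0 (ups k) (Q k) s := integral_add hA hB
    have e3 : (∫ s in Ioi (0:ℝ), ∑ j, Tfun x u w0 w1 (xi j) (P j) s)
        = ∑ j, ∫ s in Ioi (0:ℝ), Tfun x u w0 w1 (xi j) (P j) s :=
      integral_finset_sum _ (fun j _ => hTj j)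
    have e4 : (∫ s in Ioi (0:ℝ), ∑ k, Tfun u x w1 w0 (ups k) (Q k) s)
        = ∑ k, ∫ s in Ioi (0:ℝ), Tfun u x w1 w0 (ups k) (Q k) s :=
      integral_finset_sum _ (fun k _ => hTk k)
    have e5 : (∫ s in Ioi (0:ℝ), 2 * x * u * ∑ j, ∑ k, kap j k * Cfun x u w0 w1 (xi j) (ups k) s)
        = 2 * x * u * ∑ j, ∑ k, kap j k * ∫ s in Ioi (0:ℝ), Cfun x u w0 w1 (xi j) (ups k) s := by
      rw [integral_const_mul, integral_finset_sum _ (fun j _ => integrable_finset_sum _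
        (fun k _ => (hCjk j k).const_mul (kap j k)))]
      congr 1
      refine Finset.sum_congr rfl (fun j _ => ?_)
      rw [integral_finset_sum _ (fun k _ => (hCjk j k).const_mul (kap j k))]
      refine Finset.sum_congr rfl (fun k _ => ?_)
      rw [integral_const_mul]
    rw [e1, e2, e3, e4, e5]
  -- the two one-sided sums
  have hJ' : IGa + (∑ j, Real.negMulLog (xi j)) - w0 * IA2
      ≤ ∑ j, ∫ s in Ioi (0:ℝ), Tfun x u w0 w1 (xi j) (P j) s := by
    have e : ∀ j, (∫ s in Ioi (0:ℝ), Tfun x u w0 w1 (xi j) (P j) s)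
        = (if xi j = 0 then 0 else (xi j / x) * IGa - P j * IA2) + Real.negMulLog (xi j) :=
      fun j => integral_Tfun hx hu hw0 hw1 (hxi j) (hxξ j)
    rw [Finset.sum_congr rfl (fun j _ => e j), Finset.sum_add_distrib]
    have hterm : ∀ j, (xi j / x) * IGa - P j * IA2
        ≤ (if xi j = 0 then 0 else (xi j / x) * IGa - P j * IA2) := by
      intro j
      by_cases h : xi j = 0
      · rw [if_pos h, h, zero_div, zero_mul, zero_sub]
        have := mul_nonneg (hP j) hIA20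
        linarith
      · rw [if_neg h]
    have hsum : ∑ j, ((xi j / x) * IGa - P j * IA2)
        = (∑ j, xi j / x) * IGa - (∑ j, P j) * IA2 := by
      rw [Finset.sum_sub_distrib, Finset.sum_mul, Finset.sum_mul]
    have hσs : ∑ j, xi j / x ≤ 1 := by
      rw [← Finset.sum_div, ← hxdef]; exact div_self_le_one x
    have h1 : IGa ≤ (∑ j, xi j / x) * IGa := by
      nlinarith [mul_nonneg_of_nonpos_of_nonpos (sub_nonpos.mpr hσs) hIGa0]
    have h2 : (∑ j, P j) * IA2 ≤ w0 * IA2 := mul_le_mul_of_nonneg_right hPs hIA20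
    have h3 := Finset.sum_le_sum (fun j (_ : j ∈ Finset.univ) => hterm j)
    rw [hsum] at h3
    linarith
  have hK' : IGb + (∑ k, Real.negMulLog (ups k)) - w1 * IB2
      ≤ ∑ k, ∫ s in Ioi (0:ℝ), Tfun u x w1 w0 (ups k) (Q k) s := by
    have e : ∀ k, (∫ s in Ioi (0:ℝ), Tfun u x w1 w0 (ups k) (Q k) s)
        = (if ups k = 0 then 0 else (ups k / u) * IGb - Q k * IB2) + Real.negMulLog (ups k) :=
      fun k => integral_Tfun hu hx hw1 hw0 (hups k) (huυ k)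
    rw [Finset.sum_congr rfl (fun k _ => e k), Finset.sum_add_distrib]
    have hterm : ∀ k, (ups k / u) * IGb - Q k * IB2
        ≤ (if ups k = 0 then 0 else (ups k / u) * IGb - Q k * IB2) := by
      intro k
      by_cases h : ups k = 0
      · rw [if_pos h, h, zero_div, zero_mul, zero_sub]
        have := mul_nonneg (hQ k) hIB20
        linarith
      · rw [if_neg h]
    have hsum : ∑ k, ((ups k / u) * IGb - Q k * IB2)
        = (∑ k, ups k / u) * IGb - (∑ k, Q k) * IB2 := by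
      rw [Finset.sum_sub_distrib, Finset.sum_mul, Finset.sum_mul]
    have hσs : ∑ k, ups k / u ≤ 1 := by
      rw [← Finset.sum_div, ← hudef]; exact div_self_le_one u
    have h1 : IGb ≤ (∑ k, ups k / u) * IGb := by
      nlinarith [mul_nonneg_of_nonpos_of_nonpos (sub_nonpos.mpr hσs) hIGb0]
    have h2 : (∑ k, Q k) * IB2 ≤ w1 * IB2 := mul_le_mul_of_nonneg_right hQs hIB20
    have h3 := Finset.sum_le_sum (fun k (_ : k ∈ Finset.univ) => hterm k)
    rw [hsum] at h3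
    linarith
  -- the cross term
  have hC' : ∑ j, ∑ k, kap j k * ∫ s in Ioi (0:ℝ), Cfun x u w0 w1 (xi j) (ups k) s ≤ IAB := by
    have e : ∀ j k, (∫ s in Ioi (0:ℝ), Cfun x u w0 w1 (xi j) (ups k) s)
        = ∫ t in Ioi (0:ℝ), alF x u w0 w1 t *
            (if xi j = 0 ∨ ups k = 0 then 0
              else (xi j / x) * alF u x w1 w0 (t * ((xi j / x) / (ups k / u)))) :=
      fun j k => integral_Cfun hx hu hw0 hw1 (hxi j) (hups k) (hxξ j) (huυ k)
    have hφ : ∀ j k, IntegrableOn (fun t => alF x u w0 w1 t *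
            (if xi j = 0 ∨ ups k = 0 then 0
              else (xi j / x) * alF u x w1 w0 (t * ((xi j / x) / (ups k / u))))) (Ioi 0) :=
      fun j k => integrableOn_alF_mul_phi hx hu hw0 hw1 (hxi j) (hups k) (hxξ j) (huυ k)
    have hG : IntegrableOn (fun t => ∑ j, ∑ k, kap j k * (alF x u w0 w1 t *
            (if xi j = 0 ∨ ups k = 0 then 0
              else (xi j / x) * alF u x w1 w0 (t * ((xi j / x) / (ups k / u)))))) (Ioi 0) :=
      integrable_finset_sum _ (fun j _ => integrable_finset_sum _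
        (fun k _ => (hφ j k).const_mul (kap j k)))
    have hAB := integrableOn_alF_mul_alF hx hu hw0 hw1
    have e2 : ∑ j, ∑ k, kap j k * ∫ s in Ioi (0:ℝ), Cfun x u w0 w1 (xi j) (ups k) s
        = ∫ t in Ioi (0:ℝ), ∑ j, ∑ k, kap j k * (alF x u w0 w1 t *
            (if xi j = 0 ∨ ups k = 0 then 0
              else (xi j / x) * alF u x w1 w0 (t * ((xi j / x) / (ups k / u))))) := by
      rw [integral_finset_sum _ (fun j _ => integrable_finset_sum _
        (fun k _ => (hφ j k).const_mul (kap j k)))]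
      refine Finset.sum_congr rfl (fun j _ => ?_)
      rw [integral_finset_sum _ (fun k _ => (hφ j k).const_mul (kap j k))]
      refine Finset.sum_congr rfl (fun k _ => ?_)
      rw [integral_const_mul, e j k]
    rw [e2]
    refine setIntegral_mono_on hG hAB measurableSet_Ioi (fun t ht => ?_)
    have ht0 : (0:ℝ) < t := ht
    have ha := alF_nonneg hx hu hw0 hw1 ht0.le
    have hb := b6_sum hx hu hw0 hw1 hw (fun j => xi j / x) (fun k => ups k / u) kap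
      (fun j => div_nonneg (hxi j) hx) (fun k => div_nonneg (hups k) hu)
      (by rw [← Finset.sum_div, ← hxdef]; exact div_self_le_one x)
      (by rw [← Finset.sum_div, ← hudef]; exact div_self_le_one u)
      hkap hrow hcol ht0
    beta_reduce at hb
    calc ∑ j, ∑ k, kap j k * (alF x u w0 w1 t *
            (if xi j = 0 ∨ ups k = 0 then 0
              else (xi j / x) * alF u x w1 w0 (t * ((xi j / x) / (ups k / u)))))
        = alF x u w0 w1 t * ∑ j, ∑ k, kap j k *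
            (if xi j / x = 0 ∨ ups k / u = 0 then 0
              else (xi j / x) * alF u x w1 w0 (t * ((xi j / x) / (ups k / u)))) := by
          rw [Finset.mul_sum]
          refine Finset.sum_congr rfl (fun j _ => ?_)
          rw [Finset.mul_sum]
          refine Finset.sum_congr rfl (fun k _ => ?_)
          rw [if_congr (or_congr (div_eq_zero_iff' (hxξ j)) (div_eq_zero_iff' (huυ k))) rfl rfl]
          ring
      _ ≤ alF x u w0 w1 t * alF u x w1 w0 t := mul_le_mul_of_nonneg_left hb ha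
  -- assemble
  have hF := scalarLog_eq hx hu hw0 hw1
  have hmono := setIntegral_mono_on hVint hRint measurableSet_Ioi hpt
  rw [hVval, hRval] at hmono
  have hxu : 0 ≤ 2 * x * u := by positivity
  have hC'' := mul_le_mul_of_nonneg_left hC' hxu
  rw [hF]
  linarith

/-- **`classical_der2`**, exact signature of helper70's #1656 (with `rF`, `scalarLog` of this
file, same bodies). -/
theorem classical_der2 {I J K : Type*} [Fintype I] [Fintype J] [Fintype K]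
    (c mu : I → ℝ) (hc : ∀ i, 0 ≤ c i) (hmu : ∀ i, 0 < mu i)
    (xi P : J → ℝ) (ups Q : K → ℝ) (kap : J → K → ℝ)
    (hxi : ∀ j, 0 ≤ xi j) (hups : ∀ k, 0 ≤ ups k) (hP : ∀ j, 0 ≤ P j) (hQ : ∀ k, 0 ≤ Q k)
    (hkap : ∀ j k, 0 ≤ kap j k) (hrow : ∀ j, ∑ k, kap j k ≤ 1) (hcol : ∀ k, ∑ j, kap j k ≤ 1)
    (w0 w1 : ℝ) (hw0 : 0 < w0) (hw1 : 0 < w1) (hPs : ∑ j, P j ≤ w0) (hQs : ∑ k, Q k ≤ w1)
    (hcsum : ∑ i, c i = ∑ j, xi j + ∑ k, ups k)
    (htrial : ∀ s : ℝ, 0 < s → ∀ (al : J → ℝ) (be : K → ℝ),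
        2 * ∑ j, al j * xi j + 2 * ∑ k, be k * ups k
          - ∑ j, al j ^ 2 * xi j * (xi j + s + P j) - ∑ k, be k ^ 2 * ups k * (ups k + s + Q k)
          - 2 * ∑ j, ∑ k, al j * be k * (xi j * ups k * kap j k)
        ≤ ∑ i, c i / (mu i + s)) :
    (∑ j, Real.negMulLog (xi j)) + (∑ k, Real.negMulLog (ups k)) - Real.negMulLog (∑ j, xi j)
        - Real.negMulLog (∑ k, ups k) + scalarLog (∑ j, xi j) (∑ k, ups k) w0 w1
      ≤ - ∑ i, c i * Real.log (mu i) := by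
  have _ := hc
  rcases le_total w1 w0 with hw | hw
  · exact classical_der2_aux c mu hmu xi P ups Q kap hxi hups hP hQ hkap hrow hcol w0 w1 hw0 hw1
      hw hPs hQs hcsum htrial
  · have h := classical_der2_aux c mu hmu ups Q xi P (fun k j => kap j k) hups hxi hQ hP
      (fun k j => hkap j k) hcol hrow w1 w0 hw1 hw0 hw hQs hPs (by rw [hcsum, add_comm])
      (by
        intro s hs al be
        have h0 := htrial s hs be al
        have e : ∑ k, ∑ j, al k * be j * (ups k * xi j * kap j k)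
            = ∑ j, ∑ k, be j * al k * (xi j * ups k * kap j k) := by
          rw [Finset.sum_comm]
          exact Finset.sum_congr rfl (fun j _ => Finset.sum_congr rfl (fun k _ => by ring))
        rw [e]
        linarith)
    rw [scalarLog_symm] at h
    linarith

end Classical

end Crest.Agent.GAD.Trial48
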