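import Mathlib
import Crest.Agent.GAD.Trial.Scalar

/-!
# Route 2 of row 341, module S3: the cross term of the integrated trial value

* `S3.integrableOn_aS_mul_bS`: `s ↦ aS (ξ₀) s * bS (υ₀) s` is integrable on `(0, ∞)`;
* `S3.cross_le`: `∑ j, ∑ k, κ j k * ∫ aS (ξ j) * bS (υ k) ≤ Iab` (substitution `s = σ_j t` and the
  pointwise Milne inequality `milne_b` / `milne_a` of `Trial/Scalar.lean`);
* `S3.facts2`, `S3.facts3`: the same two statements in the exact shape of the second and third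
  components of `ScalarIntFacts` in `Trial/Classical.lean`.

The names live in `Crest.Agent.GAD.Trial.S3` / `.CrossAux` (no clash with `Trial/Classical.lean`).
-/

set_option autoImplicit false

open MeasureTheory Set

namespace Crest.Agent.GAD.Trial

namespace CrossAux

/-! ### Pointwise bounds and measurability -/

theorem aF_le {x u w0 w1 t : ℝ} (hx : 0 ≤ x) (hu : 0 ≤ u) (hw0 : 0 < w0) (hw1 : 0 < w1)
    (ht : 0 ≤ t) : aF x u w0 w1 t ≤ Real.sqrt x / (w0 + t) := by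
  unfold aF
  have hD := Dl_pos hx hu hw0 hw1 ht
  have hge := Dl_ge hx hu hw0 hw1 ht
  have h0 : 0 < w0 + t := by positivity
  have h1 : 0 < w1 + t := by positivity
  rw [div_le_div_iff₀ hD h0]
  have hs : 0 ≤ Real.sqrt x := Real.sqrt_nonneg x
  calc Real.sqrt x * (w1 + t) * (w0 + t) = Real.sqrt x * ((w0 + t) * (w1 + t)) := by ring
    _ ≤ Real.sqrt x * Dl x u w0 w1 t := mul_le_mul_of_nonneg_left hge hs

theorem bF_le {x u w0 w1 t : ℝ} (hx : 0 ≤ x) (hu : 0 ≤ u) (hw0 : 0 < w0) (hw1 : 0 < w1)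
    (ht : 0 ≤ t) : bF x u w0 w1 t ≤ Real.sqrt u / (w1 + t) := by
  rw [bF_symm]; exact aF_le hu hx hw1 hw0 ht

theorem measurable_aF (x u w0 w1 : ℝ) : Measurable (fun t : ℝ => aF x u w0 w1 t) := by
  unfold aF Dl
  fun_prop

theorem measurable_bF (x u w0 w1 : ℝ) : Measurable (fun t : ℝ => bF x u w0 w1 t) := by
  unfold bF Dl
  fun_prop

/-- The basic domination: `t ↦ a(c₁ t) b(c₂ t)` is integrable on `(0, ∞)` for `c₁, c₂ > 0`. -/
theorem integrableOn_aF_comp_mul_bF_comp {x u w0 w1 : ℝ} (hx : 0 ≤ x) (hu : 0 ≤ u)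
    (hw0 : 0 < w0) (hw1 : 0 < w1) {c1 c2 : ℝ} (hc1 : 0 < c1) (hc2 : 0 < c2) :
    IntegrableOn (fun t : ℝ => aF x u w0 w1 (c1 * t) * bF x u w0 w1 (c2 * t)) (Ioi 0) := by
  set m1 : ℝ := min w0 c1 with hm1
  set m2 : ℝ := min w1 c2 with hm2
  have hm1pos : 0 < m1 := lt_min hw0 hc1
  have hm2pos : 0 < m2 := lt_min hw1 hc2
  set C : ℝ := Real.sqrt x * Real.sqrt u / (m1 * m2) with hC
  have hdom : IntegrableOn (fun t : ℝ => C * (1 + t ^ 2)⁻¹) (Ioi 0) :=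
    (integrable_inv_one_add_sq.const_mul C).integrableOn
  have hmeas : AEStronglyMeasurable
      (fun t : ℝ => aF x u w0 w1 (c1 * t) * bF x u w0 w1 (c2 * t)) (volume.restrict (Ioi 0)) := by
    have h1 : Measurable (fun t : ℝ => aF x u w0 w1 (c1 * t)) :=
      (measurable_aF x u w0 w1).comp (measurable_const_mul c1)
    have h2 : Measurable (fun t : ℝ => bF x u w0 w1 (c2 * t)) :=
      (measurable_bF x u w0 w1).comp (measurable_const_mul c2)
    exact (h1.mul h2).aestronglyMeasurable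
  refine Integrable.mono' hdom hmeas ?_
  refine (ae_restrict_iff' measurableSet_Ioi).mpr (Filter.Eventually.of_forall fun t ht => ?_)
  have ht0 : (0 : ℝ) < t := ht
  have h1t : 0 ≤ c1 * t := by positivity
  have h2t : 0 ≤ c2 * t := by positivity
  have ha0 := aF_nonneg hx hu hw0 hw1 h1t
  have hb0 := bF_nonneg hx hu hw0 hw1 h2t
  have ha1 := aF_le hx hu hw0 hw1 h1t
  have hb1 := bF_le hx hu hw0 hw1 h2t
  rw [Real.norm_eq_abs, abs_of_nonneg (mul_nonneg ha0 hb0)]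
  have hsx : 0 ≤ Real.sqrt x := Real.sqrt_nonneg x
  have hsu : 0 ≤ Real.sqrt u := Real.sqrt_nonneg u
  -- lower bounds for the denominators
  have hd1 : m1 * (1 + t) ≤ w0 + c1 * t := by
    have e1 : m1 ≤ w0 := min_le_left _ _
    have e2 : m1 ≤ c1 := min_le_right _ _
    nlinarith
  have hd2 : m2 * (1 + t) ≤ w1 + c2 * t := by
    have e1 : m2 ≤ w1 := min_le_left _ _
    have e2 : m2 ≤ c2 := min_le_right _ _
    nlinarith
  have hp1 : 0 < m1 * (1 + t) := by positivity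
  have hp2 : 0 < m2 * (1 + t) := by positivity
  have ha2 : aF x u w0 w1 (c1 * t) ≤ Real.sqrt x / (m1 * (1 + t)) :=
    ha1.trans (div_le_div_of_nonneg_left hsx hp1 hd1)
  have hb2 : bF x u w0 w1 (c2 * t) ≤ Real.sqrt u / (m2 * (1 + t)) :=
    hb1.trans (div_le_div_of_nonneg_left hsu hp2 hd2)
  calc aF x u w0 w1 (c1 * t) * bF x u w0 w1 (c2 * t)
      ≤ Real.sqrt x / (m1 * (1 + t)) * (Real.sqrt u / (m2 * (1 + t))) :=
        mul_le_mul ha2 hb2 hb0 (by positivity)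
    _ = C * ((1 + t) ^ 2)⁻¹ := by
        rw [hC]; field_simp
    _ ≤ C * (1 + t ^ 2)⁻¹ := by
        have hCnn : 0 ≤ C := by rw [hC]; positivity
        refine mul_le_mul_of_nonneg_left ?_ hCnn
        have h3 : (0 : ℝ) < 1 + t ^ 2 := by positivity
        rw [inv_le_inv₀ (by positivity) h3]
        nlinarith

/-- `a b` is integrable on `(0, ∞)`. -/
theorem integrableOn_aF_mul_bF' {x u w0 w1 : ℝ} (hx : 0 ≤ x) (hu : 0 ≤ u)
    (hw0 : 0 < w0) (hw1 : 0 < w1) :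
    IntegrableOn (fun t : ℝ => aF x u w0 w1 t * bF x u w0 w1 t) (Ioi 0) := by
  have h := integrableOn_aF_comp_mul_bF_comp hx hu hw0 hw1 one_pos one_pos
  simpa using h

theorem aF_zero_left (u w0 w1 t : ℝ) : aF 0 u w0 w1 t = 0 := by
  unfold aF; simp

theorem bF_zero_right (x w0 w1 t : ℝ) : bF x 0 w0 w1 t = 0 := by
  unfold bF; simp

end CrossAux

namespace S3

open CrossAux in
/-- **S3, integrability.** -/
theorem integrableOn_aS_mul_bS {x u w0 w1 : ℝ} (hx : 0 ≤ x) (hu : 0 ≤ u) (hw0 : 0 < w0)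
    (hw1 : 0 < w1) (ξ0 υ0 : ℝ) (hξ0 : 0 ≤ ξ0) (hυ0 : 0 ≤ υ0) :
    IntegrableOn (fun s : ℝ => aS x u w0 w1 ξ0 s * bS x u w0 w1 υ0 s) (Ioi 0) := by
  by_cases h1 : ξ0 = 0
  · have : (fun s : ℝ => aS x u w0 w1 ξ0 s * bS x u w0 w1 υ0 s) = fun _ => 0 := by
      funext s; simp [aS, h1]
    rw [this]; exact integrableOn_zero
  by_cases h2 : υ0 = 0
  · have : (fun s : ℝ => aS x u w0 w1 ξ0 s * bS x u w0 w1 υ0 s) = fun _ => 0 := by
      funext s; simp [bS, h2]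
    rw [this]; exact integrableOn_zero
  rcases hx.eq_or_lt with hx0 | hx0
  · have : (fun s : ℝ => aS x u w0 w1 ξ0 s * bS x u w0 w1 υ0 s) = fun _ => 0 := by
      funext s; simp [aS, h1, ← hx0, aF_zero_left]
    rw [this]; exact integrableOn_zero
  rcases hu.eq_or_lt with hu0 | hu0
  · have : (fun s : ℝ => aS x u w0 w1 ξ0 s * bS x u w0 w1 υ0 s) = fun _ => 0 := by
      funext s; simp [bS, h2, ← hu0, bF_zero_right]
    rw [this]; exact integrableOn_zero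
  have hξpos : 0 < ξ0 := lt_of_le_of_ne hξ0 (Ne.symm h1)
  have hυpos : 0 < υ0 := lt_of_le_of_ne hυ0 (Ne.symm h2)
  have h := integrableOn_aF_comp_mul_bF_comp hx hu hw0 hw1 (div_pos hx0 hξpos) (div_pos hu0 hυpos)
  have e : (fun s : ℝ => aS x u w0 w1 ξ0 s * bS x u w0 w1 υ0 s)
      = fun t : ℝ => aF x u w0 w1 (x / ξ0 * t) * bF x u w0 w1 (u / υ0 * t) := by
    funext s
    simp only [aS, bS, if_neg h1, if_neg h2]
    congr 2 <;> ring
  rw [e]; exact h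

/-! ### The cross term -/

section CrossSec

variable {J K : Type*} [Fintype J] [Fintype K]

open CrossAux in
/-- **S3, cross term**, case `w1 ≤ w0` (substitution `s = σ_j t` and `milne_b`). -/
theorem cross_le_of_le (ξ : J → ℝ) (υ : K → ℝ) (κ : J → K → ℝ) (hξ : ∀ j, 0 ≤ ξ j)
    (hυ : ∀ k, 0 ≤ υ k) {w0 w1 : ℝ} (hw0 : 0 < w0) (hw1 : 0 < w1) (h01 : w1 ≤ w0)
    (hκ : ∀ j k, 0 ≤ κ j k) (hrow : ∀ j, ∑ k, κ j k ≤ 1) (hcol : ∀ k, ∑ j, κ j k ≤ 1) :
    ∑ j, ∑ k, κ j k * (∫ s in Ioi (0 : ℝ),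
        aS (∑ j, ξ j) (∑ k, υ k) w0 w1 (ξ j) s * bS (∑ j, ξ j) (∑ k, υ k) w0 w1 (υ k) s)
      ≤ Iab (∑ j, ξ j) (∑ k, υ k) w0 w1 := by
  set X := ∑ j, ξ j with hX
  set U := ∑ k, υ k with hU
  have hX0 : 0 ≤ X := Finset.sum_nonneg fun j _ => hξ j
  have hU0 : 0 ≤ U := Finset.sum_nonneg fun k _ => hυ k
  set σ : J → ℝ := fun j => ξ j / X with hσ
  set τ : K → ℝ := fun k => υ k / U with hτ
  have hσ0 : ∀ j, 0 ≤ σ j := fun j => div_nonneg (hξ j) hX0
  have hτ0 : ∀ k, 0 ≤ τ k := fun k => div_nonneg (hυ k) hU0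
  have hσ1 : ∑ j, σ j ≤ 1 := by
    have : ∑ j, σ j = X / X := by rw [hX, Finset.sum_div]
    rw [this]; exact div_self_le_one X
  have hτ1 : ∑ k, τ k ≤ 1 := by
    have : ∑ k, τ k = U / U := by rw [hU, Finset.sum_div]
    rw [this]; exact div_self_le_one U
  -- the substituted integrands
  set h : J → K → ℝ → ℝ := fun j k t =>
    aF X U w0 w1 t * (κ j k * (σ j * (if τ k = 0 then 0 else bF X U w0 w1 (t * σ j / τ k))))
    with hh
  have key : ∀ j k,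
      κ j k * (∫ s in Ioi (0 : ℝ), aS X U w0 w1 (ξ j) s * bS X U w0 w1 (υ k) s)
        = ∫ t in Ioi (0 : ℝ), h j k t ∧ IntegrableOn (h j k) (Ioi 0) := by
    intro j k
    by_cases h1 : ξ j = 0
    · have hσj : σ j = 0 := by simp [hσ, h1]
      have e1 : (fun s : ℝ => aS X U w0 w1 (ξ j) s * bS X U w0 w1 (υ k) s) = fun _ => 0 := by
        funext s; simp [aS, h1]
      have e2 : h j k = fun _ => 0 := by
        funext t; simp [hh, hσj]
      rw [e1, e2]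
      exact ⟨by simp, integrableOn_zero⟩
    by_cases h2 : υ k = 0
    · have hτk : τ k = 0 := by simp [hτ, h2]
      have e1 : (fun s : ℝ => aS X U w0 w1 (ξ j) s * bS X U w0 w1 (υ k) s) = fun _ => 0 := by
        funext s; simp [bS, h2]
      have e2 : h j k = fun _ => 0 := by
        funext t; simp [hh, hτk]
      rw [e1, e2]
      exact ⟨by simp, integrableOn_zero⟩
    have hξpos : 0 < ξ j := lt_of_le_of_ne (hξ j) (Ne.symm h1)
    have hυpos : 0 < υ k := lt_of_le_of_ne (hυ k) (Ne.symm h2)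
    have hXpos : 0 < X :=
      lt_of_lt_of_le hξpos (Finset.single_le_sum (fun i _ => hξ i) (Finset.mem_univ j))
    have hUpos : 0 < U :=
      lt_of_lt_of_le hυpos (Finset.single_le_sum (fun i _ => hυ i) (Finset.mem_univ k))
    have hσpos : 0 < σ j := div_pos hξpos hXpos
    have hτpos : 0 < τ k := div_pos hυpos hUpos
    have hτne : τ k ≠ 0 := ne_of_gt hτpos
    set c : ℝ := σ j / τ k with hc
    have hcpos : 0 < c := div_pos hσpos hτpos
    set g : ℝ → ℝ := fun t => aF X U w0 w1 t * bF X U w0 w1 (c * t) with hg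
    have hgint : IntegrableOn g (Ioi 0) := by
      have := integrableOn_aF_comp_mul_bF_comp hX0 hU0 hw0 hw1 one_pos hcpos
      simpa [hg] using this
    have e1 : (fun s : ℝ => aS X U w0 w1 (ξ j) s * bS X U w0 w1 (υ k) s)
        = fun s => g (X / ξ j * s) := by
      funext s
      simp only [aS, bS, if_neg h1, if_neg h2, hg]
      congr 2
      · ring
      · rw [hc, hσ, hτ]
        field_simp
    have e2 : h j k = fun t => (κ j k * σ j) * g t := by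
      funext t
      simp only [hh, if_neg hτne, hg]
      have : t * σ j / τ k = c * t := by rw [hc]; ring
      rw [this]; ring
    have e3 : ∫ s in Ioi (0 : ℝ), g (X / ξ j * s) = σ j * ∫ t in Ioi (0 : ℝ), g t := by
      have := integral_comp_mul_left_Ioi g 0 (div_pos hXpos hξpos)
      rw [mul_zero] at this
      rw [this, smul_eq_mul, inv_div]
    constructor
    · rw [e1, e3, e2, integral_const_mul]; ring
    · rw [e2]; exact hgint.const_mul _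
  have hint : ∀ j, IntegrableOn (fun t => ∑ k, h j k t) (Ioi 0) := fun j =>
    integrable_finsetSum _ fun k _ => (key j k).2
  calc ∑ j, ∑ k, κ j k * (∫ s in Ioi (0 : ℝ), aS X U w0 w1 (ξ j) s * bS X U w0 w1 (υ k) s)
      = ∑ j, ∑ k, ∫ t in Ioi (0 : ℝ), h j k t :=
        Finset.sum_congr rfl fun j _ => Finset.sum_congr rfl fun k _ => (key j k).1
    _ = ∫ t in Ioi (0 : ℝ), ∑ j, ∑ k, h j k t := by
        rw [integral_finsetSum _ fun j _ => hint j]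
        refine Finset.sum_congr rfl fun j _ => ?_
        rw [integral_finsetSum _ fun k _ => (key j k).2]
    _ ≤ ∫ t in Ioi (0 : ℝ), aF X U w0 w1 t * bF X U w0 w1 t := by
        refine setIntegral_mono_on (integrable_finsetSum _ fun j _ => hint j)
          (integrableOn_aF_mul_bF' hX0 hU0 hw0 hw1) measurableSet_Ioi ?_
        intro t ht
        have ht0 : (0 : ℝ) < t := ht
        have hm := milne_b hX0 hU0 hw0 hw1 h01 σ τ κ hσ0 hτ0 hσ1 hτ1 hκ hrow hcol ht0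
        have ha := aF_nonneg hX0 hU0 hw0 hw1 ht0.le
        calc ∑ j, ∑ k, h j k t
            = aF X U w0 w1 t * ∑ j, ∑ k, κ j k *
                (σ j * (if τ k = 0 then 0 else bF X U w0 w1 (t * σ j / τ k))) := by
              rw [Finset.mul_sum]
              refine Finset.sum_congr rfl fun j _ => ?_
              rw [Finset.mul_sum]
          _ ≤ aF X U w0 w1 t * bF X U w0 w1 t := mul_le_mul_of_nonneg_left hm ha
    _ = Iab X U w0 w1 := rfl

/-- **S3, cross term**: `∑ j, ∑ k, κ j k * ∫ aS (ξ j) * bS (υ k) ≤ Iab`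
(`x = ∑ ξ`, `u = ∑ υ`, `κ ≥ 0` with row and column sums `≤ 1`). -/
theorem cross_le (ξ : J → ℝ) (υ : K → ℝ) (κ : J → K → ℝ) (hξ : ∀ j, 0 ≤ ξ j)
    (hυ : ∀ k, 0 ≤ υ k) {w0 w1 : ℝ} (hw0 : 0 < w0) (hw1 : 0 < w1)
    (hκ : ∀ j k, 0 ≤ κ j k) (hrow : ∀ j, ∑ k, κ j k ≤ 1) (hcol : ∀ k, ∑ j, κ j k ≤ 1) :
    ∑ j, ∑ k, κ j k * (∫ s in Ioi (0 : ℝ),
        aS (∑ j, ξ j) (∑ k, υ k) w0 w1 (ξ j) s * bS (∑ j, ξ j) (∑ k, υ k) w0 w1 (υ k) s)
      ≤ Iab (∑ j, ξ j) (∑ k, υ k) w0 w1 := by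
  rcases le_total w1 w0 with h | h
  · exact cross_le_of_le ξ υ κ hξ hυ hw0 hw1 h hκ hrow hcol
  · have hm := cross_le_of_le (J := K) (K := J) υ ξ (fun k j => κ j k) hυ hξ hw1 hw0 h
      (fun k j => hκ j k) hcol hrow
    rw [Iab_symm, Finset.sum_comm]
    have e : ∀ (j : J) (k : K) (s : ℝ),
        aS (∑ j, ξ j) (∑ k, υ k) w0 w1 (ξ j) s * bS (∑ j, ξ j) (∑ k, υ k) w0 w1 (υ k) s
          = aS (∑ k, υ k) (∑ j, ξ j) w1 w0 (υ k) s * bS (∑ k, υ k) (∑ j, ξ j) w1 w0 (ξ j) s := by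
      intro j k s
      rw [bS_symm (∑ j, ξ j) (∑ k, υ k) w0 w1, bS_symm (∑ k, υ k) (∑ j, ξ j) w1 w0, mul_comm]
    simp_rw [e]
    exact hm

end CrossSec

/-- Second component of `ScalarIntFacts` (`Trial/Classical.lean`), in its exact shape. -/
theorem facts2 : ∀ (x u w0 w1 ξ0 υ0 : ℝ), 0 ≤ x → 0 ≤ u → 0 < w0 → 0 < w1 → 0 ≤ ξ0 → 0 ≤ υ0 →
    IntegrableOn (fun s => aS x u w0 w1 ξ0 s * bS x u w0 w1 υ0 s) (Ioi 0) :=
  fun _ _ _ _ ξ0 υ0 hx hu hw0 hw1 hξ0 hυ0 => integrableOn_aS_mul_bS hx hu hw0 hw1 ξ0 υ0 hξ0 hυ0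

/-- Third component of `ScalarIntFacts` (`Trial/Classical.lean`), in its exact shape. -/
theorem facts3 : ∀ (J K : Type) [Fintype J] [Fintype K] (ξ : J → ℝ) (υ : K → ℝ) (κ : J → K → ℝ),
    (∀ j, 0 ≤ ξ j) → (∀ k, 0 ≤ υ k) → (∀ j k, 0 ≤ κ j k) →
    (∀ j, ∑ k, κ j k ≤ 1) → (∀ k, ∑ j, κ j k ≤ 1) → ∀ (w0 w1 : ℝ), 0 < w0 → 0 < w1 →
    0 < ∑ j, ξ j → 0 < ∑ k, υ k →
    ∑ j, ∑ k, κ j k * (∫ s in Ioi (0 : ℝ), aS (∑ j, ξ j) (∑ k, υ k) w0 w1 (ξ j) s
        * bS (∑ j, ξ j) (∑ k, υ k) w0 w1 (υ k) s)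
      ≤ Iab (∑ j, ξ j) (∑ k, υ k) w0 w1 :=
  fun _ _ _ _ ξ υ κ hξ hυ hκ hrow hcol _ _ hw0 hw1 _ _ =>
    cross_le ξ υ κ hξ hυ hw0 hw1 hκ hrow hcol

end S3

end Crest.Agent.GAD.Trial
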