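import Mathlib
import Crest.Agent.GAD.Klein
import Crest.Agent.GAD.Trial.LogIntSum
import Crest.Agent.GAD.Trial.Scalar

/-!
# Route 2 of row 341: the `2 × 2` (scalar skeleton) side of `(DER2)`

For any eigen-data `(W, b)` of the skeleton matrix
`skelM x y w0 w1 = [[x + w0, √x √y], [√x √y, y + w1]]` (`w0, w1 > 0`):
`b > 0` and
`-∑ j, ⟨w_j, skelM x y 0 0 w_j⟩ log b_j = ∫_0^∞ [rF x y w0 w1 s - (x + y)/(1 + s)] ds`,
where `rF = vᵀ (m + s)⁻¹ v = (x (w1 + s) + y (w0 + s)) / ((x + w0 + s)(y + w1 + s) - x y)`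
(`Trial/Scalar.lean`).

Also a generic resolvent identity `rsum_eq` (any size) in eigenvector form.
-/

set_option autoImplicit false

open MeasureTheory Set Matrix
open scoped ComplexOrder
open Crest.Agent.GAD.Klein Crest.Agent.GAD.Trial

namespace Crest.Agent.GAD.Trial.Skel2

section Generic

variable {n : Type*} [Fintype n] [DecidableEq n]

omit [DecidableEq n] in
/-- `⟨w_j, g gᴴ w_j⟩ = |(Wᴴ g)_j|²`. -/
theorem diagIn_vecMulVec (W : Matrix n n ℂ) (g : n → ℂ) (j : n) :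
    diagIn W (vecMulVec g (star g)) j = Complex.normSq ((star W *ᵥ g) j) := by
  unfold diagIn
  have h1 : star g ᵥ* W = star (star W *ᵥ g) := by
    rw [Matrix.star_mulVec, Matrix.star_eq_conjTranspose, Matrix.conjTranspose_conjTranspose]
  rw [Matrix.mul_vecMulVec, Matrix.vecMulVec_mul, h1, Matrix.vecMulVec_apply, Pi.star_apply]
  exact re_mul_star_self _

/-- `⟨w_j, diag(w) w_j⟩ = ∑ i, w_i |W i j|²`. -/
theorem diagIn_diagonal (W : Matrix n n ℂ) (w : n → ℝ) (j : n) :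
    diagIn W (diagonal fun i => (w i : ℂ)) j = ∑ i, w i * Complex.normSq (W i j) := by
  unfold diagIn
  rw [Matrix.mul_apply, Complex.re_sum]
  refine Finset.sum_congr rfl fun i _ => ?_
  rw [Matrix.mul_diagonal, Matrix.star_apply]
  have h : star (W i j) * (w i : ℂ) * W i j = (w i : ℂ) * (star (W i j) * W i j) := by ring
  rw [h, Complex.re_ofReal_mul, re_star_mul_self]

/-- Columns of a matrix with `star W * W = 1` are unit vectors. -/
theorem sum_normSq_col (W : Matrix n n ℂ) (hW : star W * W = 1) (j : n) :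
    ∑ i, Complex.normSq (W i j) = 1 := by
  have h : (star W * W) j j = 1 := by rw [hW, Matrix.one_apply_eq]
  rw [Matrix.mul_apply] at h
  have h2 : (∑ i, (star W) j i * W i j).re = 1 := by rw [h, Complex.one_re]
  rw [Complex.re_sum] at h2
  rw [← h2]
  refine Finset.sum_congr rfl fun i _ => ?_
  rw [Matrix.star_apply, re_star_mul_self]

/-- Diagonal entries of `M` in an eigenbasis are the eigenvalues. -/
theorem diagIn_of_spectral (M W : Matrix n n ℂ) (b : n → ℝ) (hW : star W * W = 1)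
    (hM : M = W * diagonal (fun i => (b i : ℂ)) * star W) (j : n) : diagIn W M j = b j := by
  unfold diagIn
  have h : star W * M * W = diagonal (fun i => (b i : ℂ)) := by
    rw [hM]
    calc star W * (W * diagonal (fun i => (b i : ℂ)) * star W) * W
        = (star W * W) * diagonal (fun i => (b i : ℂ)) * (star W * W) := by
          simp only [mul_assoc]
      _ = diagonal (fun i => (b i : ℂ)) := by rw [hW, one_mul, mul_one]
  rw [h, Matrix.diagonal_apply_eq, Complex.ofReal_re]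

/-- **Resolvent identity in eigenvector form**: if `M = W diag(b) Wᴴ` and `(M + s) φ = g` then
`∑ i, ⟨w_i, g gᴴ w_i⟩ / (b_i + s) = Re (gᴴ φ)`. -/
theorem rsum_eq (M W : Matrix n n ℂ) (b : n → ℝ) (hW : star W * W = 1)
    (hM : M = W * diagonal (fun i => (b i : ℂ)) * star W) (s : ℝ) (hpos : ∀ i, b i + s ≠ 0)
    (g φ : n → ℂ) (h : (M + (s : ℂ) • (1 : Matrix n n ℂ)) *ᵥ φ = g) :
    ∑ i, diagIn W (vecMulVec g (star g)) i / (b i + s) = (star g ⬝ᵥ φ).re := by
  have hW' : W * star W = 1 := mul_eq_one_comm.mp hW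
  set g' : n → ℂ := star W *ᵥ g with hg'
  set φ' : n → ℂ := star W *ᵥ φ with hφ'
  -- (b_i + s) φ'_i = g'_i
  have hA : ∀ i, ((b i : ℂ) + (s : ℂ)) * φ' i = g' i := by
    have h1 : star W * (M + (s : ℂ) • (1 : Matrix n n ℂ))
        = diagonal (fun i => (b i : ℂ) + (s : ℂ)) * star W := by
      rw [hM, mul_add, Matrix.mul_smul, mul_one]
      have h2 : star W * (W * diagonal (fun i => (b i : ℂ)) * star W)
          = diagonal (fun i => (b i : ℂ)) * star W := by
        rw [← mul_assoc, ← mul_assoc, hW, one_mul]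
      rw [h2]
      have h3 : diagonal (fun i => (b i : ℂ) + (s : ℂ))
          = diagonal (fun i => (b i : ℂ)) + (s : ℂ) • (1 : Matrix n n ℂ) := by
        ext i k
        by_cases hik : i = k
        · subst hik; simp
        · simp [hik]
      rw [h3, add_mul, Matrix.smul_mul, one_mul]
    have h4 : star W *ᵥ ((M + (s : ℂ) • (1 : Matrix n n ℂ)) *ᵥ φ) = g' := by rw [h]
    rw [Matrix.mulVec_mulVec, h1, ← Matrix.mulVec_mulVec] at h4
    intro i
    have h5 := congrFun h4 i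
    rw [Matrix.mulVec_diagonal] at h5
    exact h5
  -- unitary invariance of the inner product
  have hB : star g ⬝ᵥ φ = star g' ⬝ᵥ φ' := by
    have h1 : star g' = star g ᵥ* W := by
      rw [hg', Matrix.star_mulVec, Matrix.star_eq_conjTranspose,
        Matrix.conjTranspose_conjTranspose]
    rw [h1, hφ', ← Matrix.dotProduct_mulVec, Matrix.mulVec_mulVec, hW', Matrix.one_mulVec]
  rw [hB, dotProduct, Complex.re_sum]
  refine Finset.sum_congr rfl fun i _ => ?_
  rw [diagIn_vecMulVec]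
  have hne : ((b i : ℂ) + (s : ℂ)) ≠ 0 := by
    have := hpos i
    exact_mod_cast this
  have hφi : φ' i = g' i / ((b i : ℂ) + (s : ℂ)) := by
    rw [eq_div_iff hne, mul_comm]; exact hA i
  rw [hφi, Pi.star_apply]
  have h6 : star (g' i) * (g' i / ((b i : ℂ) + (s : ℂ)))
      = ((Complex.normSq (g' i) / (b i + s) : ℝ) : ℂ) := by
    have h7 : star (g' i) * g' i = ((Complex.normSq (g' i) : ℝ) : ℂ) := by
      rw [Complex.star_def, mul_comm, Complex.mul_conj]
    rw [mul_div_assoc', h7]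
    push_cast
    ring
  rw [h6, Complex.ofReal_re]

end Generic

/-! ### The `2 × 2` skeleton -/

/-- The skeleton matrix `[[x + w0, √x √y], [√x √y, y + w1]]`. -/
noncomputable def skelM (x y w0 w1 : ℝ) : Matrix (Unit ⊕ Unit) (Unit ⊕ Unit) ℂ :=
  Matrix.fromBlocks (Matrix.of fun _ _ => ((x + w0 : ℝ) : ℂ))
    (Matrix.of fun _ _ => ((Real.sqrt x * Real.sqrt y : ℝ) : ℂ))
    (Matrix.of fun _ _ => ((Real.sqrt x * Real.sqrt y : ℝ) : ℂ))
    (Matrix.of fun _ _ => ((y + w1 : ℝ) : ℂ))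

/-- The vector `(√x, √y)`. -/
noncomputable def skelVec (x y : ℝ) : Unit ⊕ Unit → ℂ :=
  Sum.elim (fun _ => ((Real.sqrt x : ℝ) : ℂ)) (fun _ => ((Real.sqrt y : ℝ) : ℂ))

theorem skelM_zero_eq {x y : ℝ} (hx : 0 ≤ x) (hy : 0 ≤ y) :
    skelM x y 0 0 = vecMulVec (skelVec x y) (star (skelVec x y)) := by
  have hsx : Real.sqrt x * Real.sqrt x = x := Real.mul_self_sqrt hx
  have hsy : Real.sqrt y * Real.sqrt y = y := Real.mul_self_sqrt hy
  ext i j
  rcases i with i | i <;> rcases j with j | j <;>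
    simp [skelM, skelVec, Matrix.vecMulVec_apply, ← Complex.ofReal_mul, hsx, hsy, mul_comm]

theorem skelM_eq_add (x y w0 w1 : ℝ) :
    skelM x y w0 w1 = skelM x y 0 0
      + diagonal (fun i : Unit ⊕ Unit => ((Sum.elim (fun _ => w0) (fun _ => w1) i : ℝ) : ℂ)) := by
  ext i j
  rcases i with i | i <;> rcases j with j | j <;> simp [skelM]

/-- The `1 × 1`-block instance of the four-piece matrix `[[a aᴴ + T0, a bᴴ], [b aᴴ, b bᴴ + T1]]`
(the matrix inside `phi4` of `GAD/AD4Lprime.lean`) is the skeleton. -/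
theorem fromBlocks_unit_eq_skelM {x y : ℝ} (hx : 0 ≤ x) (hy : 0 ≤ y) (w0 w1 : ℝ) :
    Matrix.fromBlocks
      ((Matrix.of fun (_ _ : Unit) => ((Real.sqrt x : ℝ) : ℂ))
          * (Matrix.of fun (_ _ : Unit) => ((Real.sqrt x : ℝ) : ℂ))ᴴ
        + Matrix.of fun (_ _ : Unit) => ((w0 : ℝ) : ℂ))
      ((Matrix.of fun (_ _ : Unit) => ((Real.sqrt x : ℝ) : ℂ))
          * (Matrix.of fun (_ _ : Unit) => ((Real.sqrt y : ℝ) : ℂ))ᴴ)
      ((Matrix.of fun (_ _ : Unit) => ((Real.sqrt y : ℝ) : ℂ))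
          * (Matrix.of fun (_ _ : Unit) => ((Real.sqrt x : ℝ) : ℂ))ᴴ)
      ((Matrix.of fun (_ _ : Unit) => ((Real.sqrt y : ℝ) : ℂ))
          * (Matrix.of fun (_ _ : Unit) => ((Real.sqrt y : ℝ) : ℂ))ᴴ
        + Matrix.of fun (_ _ : Unit) => ((w1 : ℝ) : ℂ))
      = skelM x y w0 w1 := by
  have hsx : Real.sqrt x * Real.sqrt x = x := Real.mul_self_sqrt hx
  have hsy : Real.sqrt y * Real.sqrt y = y := Real.mul_self_sqrt hy
  ext i j
  rcases i with i | i <;> rcases j with j | j <;>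
    simp [skelM, Matrix.mul_apply, ← Complex.ofReal_mul, hsx, hsy, mul_comm]


theorem skelM_trace_re (x y w0 w1 : ℝ) : (skelM x y w0 w1).trace.re = x + w0 + (y + w1) := by
  simp [skelM, Matrix.trace, Fintype.sum_sum_type]

private theorem skel_resolvent_real (sx sy w0 w1 s D : ℝ)
    (hD : D = (sx * sx + w0 + s) * (sy * sy + w1 + s) - sx * sx * (sy * sy)) (hD0 : D ≠ 0) :
    (sx * sx + w0 + s) * (sx * (w1 + s) / D) + (sx * sy) * (sy * (w0 + s) / D) = sx ∧
    (sx * sy) * (sx * (w1 + s) / D) + (sy * sy + w1 + s) * (sy * (w0 + s) / D) = sy ∧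
    sx * (sx * (w1 + s) / D) + sy * (sy * (w0 + s) / D)
      = (sx * sx * (w1 + s) + sy * sy * (w0 + s)) / D := by
  refine ⟨?_, ?_, ?_⟩
  · field_simp
    rw [hD]; ring
  · field_simp
    rw [hD]; ring
  · field_simp

/-- `∑ j, ⟨w_j, skelM x y 0 0 w_j⟩ / (b_j + s) = rF x y w0 w1 s`. -/
theorem skel_rsum {x y w0 w1 : ℝ} (hx : 0 ≤ x) (hy : 0 ≤ y) (hw0 : 0 < w0) (hw1 : 0 < w1)
    (W : Matrix (Unit ⊕ Unit) (Unit ⊕ Unit) ℂ) (b : Unit ⊕ Unit → ℝ) (hW : star W * W = 1)
    (hm : skelM x y w0 w1 = W * diagonal (fun i => (b i : ℂ)) * star W)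
    {s : ℝ} (hs : 0 ≤ s) (hpos : ∀ i, b i + s ≠ 0) :
    ∑ j, diagIn W (skelM x y 0 0) j / (b j + s) = rF x y w0 w1 s := by
  set sx := Real.sqrt x with hsx_def
  set sy := Real.sqrt y with hsy_def
  have hsx : sx * sx = x := Real.mul_self_sqrt hx
  have hsy : sy * sy = y := Real.mul_self_sqrt hy
  set D : ℝ := (sx * sx + w0 + s) * (sy * sy + w1 + s) - sx * sx * (sy * sy) with hD
  have hDpos : 0 < D := by
    have h1 : D = (sx * sx) * (w1 + s) + (sy * sy) * (w0 + s) + (w0 + s) * (w1 + s) := by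
      rw [hD]; ring
    rw [h1, hsx, hsy]
    have : 0 < (w0 + s) * (w1 + s) := by positivity
    have h2 : 0 ≤ x * (w1 + s) := by positivity
    have h3 : 0 ≤ y * (w0 + s) := by positivity
    linarith
  obtain ⟨e1, e2, e3⟩ := skel_resolvent_real sx sy w0 w1 s D hD (ne_of_gt hDpos)
  set φ : Unit ⊕ Unit → ℂ :=
    Sum.elim (fun _ => ((sx * (w1 + s) / D : ℝ) : ℂ)) (fun _ => ((sy * (w0 + s) / D : ℝ) : ℂ))
    with hφ
  have hres : (skelM x y w0 w1 + (s : ℂ) • (1 : Matrix (Unit ⊕ Unit) (Unit ⊕ Unit) ℂ)) *ᵥ φ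
      = skelVec x y := by
    ext i
    rcases i with i | i
    · have : (((x + w0 : ℝ) : ℂ) + (s : ℂ)) * ((sx * (w1 + s) / D : ℝ) : ℂ)
          + ((sx * sy : ℝ) : ℂ) * ((sy * (w0 + s) / D : ℝ) : ℂ) = ((sx : ℝ) : ℂ) := by
        rw [← hsx]
        exact_mod_cast e1
      simpa [Matrix.mulVec, dotProduct, skelM, skelVec, hφ, Fintype.sum_sum_type,
        Matrix.add_apply, Matrix.smul_apply, Matrix.one_apply] using this
    · have : ((sx * sy : ℝ) : ℂ) * ((sx * (w1 + s) / D : ℝ) : ℂ)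
          + (((y + w1 : ℝ) : ℂ) + (s : ℂ)) * ((sy * (w0 + s) / D : ℝ) : ℂ) = ((sy : ℝ) : ℂ) := by
        rw [← hsy]
        exact_mod_cast e2
      simpa [Matrix.mulVec, dotProduct, skelM, skelVec, hφ, Fintype.sum_sum_type,
        Matrix.add_apply, Matrix.smul_apply, Matrix.one_apply] using this
  have hmain := rsum_eq (skelM x y w0 w1) W b hW hm s hpos (skelVec x y) φ hres
  rw [skelM_zero_eq hx hy, hmain]
  have hdot : star (skelVec x y) ⬝ᵥ φ
      = ((sx * (sx * (w1 + s) / D) + sy * (sy * (w0 + s) / D) : ℝ) : ℂ) := by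
    simp [dotProduct, skelVec, hφ, Fintype.sum_sum_type, ← hsx_def, ← hsy_def]
  rw [hdot, Complex.ofReal_re, e3, rF, Dl, ← hsx, ← hsy]

/-- **The `2 × 2` side of `(DER2)`.** -/
theorem skel_side {x y w0 w1 : ℝ} (hx : 0 ≤ x) (hy : 0 ≤ y) (hw0 : 0 < w0) (hw1 : 0 < w1)
    (W : Matrix (Unit ⊕ Unit) (Unit ⊕ Unit) ℂ) (b : Unit ⊕ Unit → ℝ) (hW : star W * W = 1)
    (hm : skelM x y w0 w1 = W * diagonal (fun i => (b i : ℂ)) * star W) :
    (∀ j, 0 < b j) ∧
    IntegrableOn (fun s : ℝ => rF x y w0 w1 s - (x + y) / (1 + s)) (Ioi 0) ∧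
    -∑ j, diagIn W (skelM x y 0 0) j * Real.log (b j)
      = ∫ s in Ioi (0 : ℝ), (rF x y w0 w1 s - (x + y) / (1 + s)) := by
  have hW' : W * star W = 1 := mul_eq_one_comm.mp hW
  have hpsd0 : (skelM x y 0 0).PosSemidef := by
    rw [skelM_zero_eq hx hy]
    exact Matrix.posSemidef_vecMulVec_self_star _
  -- positivity of the eigenvalues
  have hbpos : ∀ j, 0 < b j := by
    intro j
    rw [← diagIn_of_spectral (skelM x y w0 w1) W b hW hm j, skelM_eq_add, diagIn_add,
      diagIn_diagonal]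
    have h1 : 0 ≤ diagIn W (skelM x y 0 0) j := diagIn_nonneg W hpsd0 j
    have h2 : min w0 w1 ≤ ∑ i, (Sum.elim (fun _ => w0) (fun _ => w1) i : ℝ)
        * Complex.normSq (W i j) := by
      calc min w0 w1 = ∑ i, min w0 w1 * Complex.normSq (W i j) := by
            rw [← Finset.mul_sum, sum_normSq_col W hW j, mul_one]
        _ ≤ _ := by
            refine Finset.sum_le_sum fun i _ => ?_
            refine mul_le_mul_of_nonneg_right ?_ (Complex.normSq_nonneg _)
            rcases i with i | i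
            · exact min_le_left _ _
            · exact min_le_right _ _
    have h3 : 0 < min w0 w1 := lt_min hw0 hw1
    linarith
  have hcsum : ∑ j, diagIn W (skelM x y 0 0) j = x + y := by
    rw [sum_diagIn W hW', skelM_trace_re]; ring
  have hR : ∀ s : ℝ, 0 < s → ∑ j, diagIn W (skelM x y 0 0) j / (b j + s) = rF x y w0 w1 s :=
    fun s hs => skel_rsum hx hy hw0 hw1 W b hW hm (le_of_lt hs)
      (fun i => ne_of_gt (add_pos (hbpos i) hs))
  have hcongr : ∀ s ∈ Ioi (0 : ℝ),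
      (∑ j, diagIn W (skelM x y 0 0) j / (b j + s) - (∑ j, diagIn W (skelM x y 0 0) j) / (1 + s))
        = rF x y w0 w1 s - (x + y) / (1 + s) := by
    intro s hs
    rw [hR s hs, hcsum]
  refine ⟨hbpos, ?_, ?_⟩
  · exact (integrableOn_sum_resolvent _ b hbpos).congr_fun hcongr measurableSet_Ioi
  · rw [← integral_sum_resolvent _ b hbpos]
    exact setIntegral_congr_fun measurableSet_Ioi hcongr

end Crest.Agent.GAD.Trial.Skel2
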