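import Mathlib
import Crest.Agent.GAD.Klein
import Crest.Agent.GAD.Trial

/-!
# Route 2 for row 341, module B3: the value of the trial function, `κ` form (helper18)

Finite-dimensional matrix algebra only.  `a b : Matrix d r ℂ`, explicit eigen-data
`a aᴴ = E diag(ξ) E*`, `b bᴴ = F diag(υ) F*` (`E`, `F` unitary), arbitrary `T0 T1`.
Exact shapes of helper70's interface (board #1656):

* `kap` : `κ_{jk} = |(E* a bᴴ F)_{jk}|² / (ξ_j υ_k)`; `kap_nonneg`;
* `kap_row`, `kap_col` : `κ` is sub-doubly-stochastic (Bessel);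
* `normSq_eq` : `|(E* a bᴴ F)_{jk}|² = ξ_j υ_k κ_{jk}`;
* `trial_value` : the value of `2 Re tr(Γᴴ Φ) - Re tr(Φᴴ (M + s) Φ)` at the trial function
  `Φ = (E diag(α) E* a ; F diag(β) F* b)`;
* `trial_kap_bound` : the hypothesis `htrial` of `classical_der2`, i.e. trial value
  `≤ ∑ i, diagIn V (Γ Γᴴ) i / (μ i + s)` (uses `resolvent_bound` of `GAD/Trial.lean`, helper44).

The main statements live in `Crest.Agent.GAD.Trial`; all auxiliary lemmas live in the
sub-namespace `Crest.Agent.GAD.Trial.TV` (no clash with `GAD/Trial.lean`).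
-/

set_option autoImplicit false
set_option linter.unusedSectionVars false

open scoped ComplexOrder
open Matrix

namespace Crest.Agent.GAD.Trial

open Crest.Agent.GAD

namespace TV

section Bessel

variable {m n r : Type*} [Fintype m] [Fintype n] [Fintype r] [DecidableEq n] [DecidableEq r]

/-- Diagonal entries of `C Cᴴ` are nonnegative. -/
theorem re_mul_conjTranspose_self_nonneg (C : Matrix m r ℂ) (j : m) :
    0 ≤ ((C * Cᴴ) j j).re := by
  rw [Matrix.mul_apply]
  simp only [Matrix.conjTranspose_apply, Complex.re_sum]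
  apply Finset.sum_nonneg
  intro c _
  rw [Klein.re_mul_star_self]
  exact Complex.normSq_nonneg _

/-- **Bessel's inequality**, matrix form: if the rows of `B` are orthogonal with squared norms
`υ_k`, then `∑_k |(A Bᴴ)_{jk}|² / υ_k ≤ (A Aᴴ)_{jj}` (Lean convention `x / 0 = 0`). -/
theorem bessel (A : Matrix m r ℂ) (B : Matrix n r ℂ) (ups : n → ℝ)
    (hB : B * Bᴴ = diagonal (fun k => (ups k : ℂ))) (j : m) :
    ∑ k, (ups k)⁻¹ * Complex.normSq ((A * Bᴴ) j k) ≤ ((A * Aᴴ) j j).re := by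
  set Dt : Matrix n n ℂ := diagonal (fun k => (((ups k)⁻¹ : ℝ) : ℂ)) with hDt
  set Pi : Matrix r r ℂ := Bᴴ * Dt * B with hPi
  have hDtH : Dtᴴ = Dt := by
    rw [hDt, Matrix.diagonal_conjTranspose]
    congr 1
    ext k
    simp
  have hPiH : Piᴴ = Pi := by
    rw [hPi, Matrix.conjTranspose_mul, Matrix.conjTranspose_mul, Matrix.conjTranspose_conjTranspose,
      hDtH, Matrix.mul_assoc]
  have hDD : Dt * (B * Bᴴ) * Dt = Dt := by
    rw [hB, hDt, Matrix.diagonal_mul_diagonal, Matrix.diagonal_mul_diagonal]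
    congr 1
    ext k
    by_cases h : ups k = 0
    · simp [h]
    · have h' : (ups k : ℂ) ≠ 0 := by exact_mod_cast h
      push_cast
      field_simp
  have hPi2 : Pi * Pi = Pi := by
    calc Pi * Pi = Bᴴ * (Dt * (B * Bᴴ) * Dt) * B := by
          simp only [hPi, Matrix.mul_assoc]
      _ = Pi := by rw [hDD]
  set C : Matrix m r ℂ := A * (1 - Pi) with hC
  have hCC : C * Cᴴ = A * Aᴴ - (A * Bᴴ) * Dt * (A * Bᴴ)ᴴ := by
    have h1 : (1 - Pi) * (1 - Pi)ᴴ = 1 - Pi := by
      rw [Matrix.conjTranspose_sub, Matrix.conjTranspose_one, hPiH]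
      rw [Matrix.mul_sub, Matrix.sub_mul, Matrix.sub_mul, hPi2]
      simp
    calc C * Cᴴ = A * ((1 - Pi) * (1 - Pi)ᴴ) * Aᴴ := by
          rw [hC, Matrix.conjTranspose_mul]
          simp only [Matrix.mul_assoc]
      _ = A * (1 - Pi) * Aᴴ := by rw [h1]
      _ = A * Aᴴ - (A * Bᴴ) * Dt * (A * Bᴴ)ᴴ := by
          rw [Matrix.mul_sub, Matrix.sub_mul, Matrix.mul_one, hPi, Matrix.conjTranspose_mul,
            Matrix.conjTranspose_conjTranspose]
          simp only [Matrix.mul_assoc]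
  have h0 := re_mul_conjTranspose_self_nonneg C j
  rw [hCC, Matrix.sub_apply, Complex.sub_re] at h0
  have h2 : (((A * Bᴴ) * Dt * (A * Bᴴ)ᴴ) j j).re
      = ∑ k, (ups k)⁻¹ * Complex.normSq ((A * Bᴴ) j k) := by
    rw [Matrix.mul_apply]
    simp only [hDt, Matrix.mul_diagonal, Matrix.conjTranspose_apply, Complex.re_sum]
    apply Finset.sum_congr rfl
    intro k _
    exact Klein.re_mul_real_mul_star _ _
  linarith

end Bessel

section TrialValue

variable {d r : Type*} [Fintype d] [DecidableEq d] [Fintype r] [DecidableEq r]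

/-- `E* (E D E*) E = D` for unitary `E`. -/
theorem conj_cancel {E : Matrix d d ℂ} (hE : star E * E = 1) (D : Matrix d d ℂ) :
    star E * (E * D * star E) * E = D := by
  calc star E * (E * D * star E) * E = (star E * E) * D * (star E * E) := by
        simp only [Matrix.mul_assoc]
    _ = D := by rw [hE]; simp

/-- In the rotated frame `a' = E* a` the Gram matrix `a' a'ᴴ` is diagonal. -/
theorem rot_gram {a : Matrix d r ℂ} {E : Matrix d d ℂ} {xi : d → ℝ} (hE : star E * E = 1)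
    (ha : a * aᴴ = E * diagonal (fun j => (xi j : ℂ)) * star E) :
    (star E * a) * (star E * a)ᴴ = diagonal (fun j => (xi j : ℂ)) := by
  rw [Matrix.conjTranspose_mul, Matrix.star_eq_conjTranspose, Matrix.conjTranspose_conjTranspose]
  calc Eᴴ * a * (aᴴ * E) = Eᴴ * (a * aᴴ) * E := by simp only [Matrix.mul_assoc]
    _ = _ := by
        rw [ha, ← Matrix.star_eq_conjTranspose]
        exact conj_cancel hE _

/-- The eigenvalues `ξ_j` of `a aᴴ` are nonnegative. -/
theorem eig_nonneg {a : Matrix d r ℂ} {E : Matrix d d ℂ} {xi : d → ℝ} (hE : star E * E = 1)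
    (ha : a * aᴴ = E * diagonal (fun j => (xi j : ℂ)) * star E) (j : d) : 0 ≤ xi j := by
  have h := re_mul_conjTranspose_self_nonneg (star E * a) j
  rw [rot_gram hE ha] at h
  simpa using h

/-- `∑_j ξ_j = tr (a aᴴ)`. -/
theorem sum_eig {a : Matrix d r ℂ} {E : Matrix d d ℂ} {xi : d → ℝ} (hE : star E * E = 1)
    (ha : a * aᴴ = E * diagonal (fun j => (xi j : ℂ)) * star E) :
    ∑ j, xi j = (a * aᴴ).trace.re := by
  rw [ha, Matrix.mul_assoc, Matrix.trace_mul_comm, Matrix.mul_assoc, hE, Matrix.mul_one,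
    Matrix.trace_diagonal, Complex.re_sum]
  simp

/-- Row `j` of the rotated `a' = E* a` vanishes when `ξ_j = 0`. -/
theorem rot_row_eq_zero {a : Matrix d r ℂ} {E : Matrix d d ℂ} {xi : d → ℝ} (hE : star E * E = 1)
    (ha : a * aᴴ = E * diagonal (fun j => (xi j : ℂ)) * star E) {j : d} (hj : xi j = 0) (c : r) :
    (star E * a) j c = 0 := by
  have h := congrFun (congrFun (rot_gram hE ha) j) j
  rw [Matrix.mul_apply] at h
  simp only [Matrix.conjTranspose_apply, Matrix.diagonal_apply_eq, hj, Complex.ofReal_zero] at h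
  have h2 := congrArg Complex.re h
  simp only [Complex.re_sum, Complex.zero_re, Klein.re_mul_star_self] at h2
  have h3 := (Finset.sum_eq_zero_iff_of_nonneg (fun c _ => Complex.normSq_nonneg _)).mp h2 c
    (Finset.mem_univ c)
  exact Complex.normSq_eq_zero.mp h3

/-- The overlap matrix `E* a bᴴ F` is `a' b'ᴴ` in the rotated frames. -/
theorem overlap_eq (a b : Matrix d r ℂ) (E F : Matrix d d ℂ) :
    star E * a * bᴴ * F = (star E * a) * (star F * b)ᴴ := by
  rw [Matrix.conjTranspose_mul, Matrix.star_eq_conjTranspose F, Matrix.conjTranspose_conjTranspose]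
  simp only [Matrix.mul_assoc]

/-- A real diagonal matrix is Hermitian. -/
theorem diagonal_ofReal_conjTranspose (al : d → ℝ) :
    (diagonal (fun j => (al j : ℂ)))ᴴ = diagonal (fun j => (al j : ℂ)) := by
  rw [Matrix.diagonal_conjTranspose]
  congr 1
  ext k
  simp

/-- The trial function block `E diag(α) E* a`, conjugate-transposed. -/
theorem trialBlock_conjTranspose (a : Matrix d r ℂ) (E : Matrix d d ℂ) (al : d → ℝ) :
    (E * diagonal (fun j => (al j : ℂ)) * star E * a)ᴴ
      = aᴴ * E * diagonal (fun j => (al j : ℂ)) * star E := by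
  rw [Matrix.conjTranspose_mul, Matrix.conjTranspose_mul, Matrix.conjTranspose_mul,
    diagonal_ofReal_conjTranspose, Matrix.star_eq_conjTranspose, Matrix.conjTranspose_conjTranspose]
  simp only [Matrix.mul_assoc]

/-- Linear term: `tr (aᴴ A a) = ∑ α_j ξ_j`. -/
theorem tr_lin {a : Matrix d r ℂ} {E : Matrix d d ℂ} {xi : d → ℝ} (hE : star E * E = 1)
    (ha : a * aᴴ = E * diagonal (fun j => (xi j : ℂ)) * star E) (al : d → ℝ) :
    (aᴴ * (E * diagonal (fun j => (al j : ℂ)) * star E * a)).trace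
      = ∑ j, (al j : ℂ) * (xi j : ℂ) := by
  have h1 := rot_gram hE ha
  calc (aᴴ * (E * diagonal (fun j => (al j : ℂ)) * star E * a)).trace
      = ((star E * a)ᴴ * (diagonal (fun j => (al j : ℂ)) * (star E * a))).trace := by
        rw [Matrix.conjTranspose_mul, Matrix.star_eq_conjTranspose,
          Matrix.conjTranspose_conjTranspose]
        simp only [Matrix.mul_assoc]
    _ = (diagonal (fun j => (al j : ℂ)) * ((star E * a) * (star E * a)ᴴ)).trace := by
        rw [Matrix.trace_mul_comm, Matrix.mul_assoc]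
    _ = ∑ j, (al j : ℂ) * (xi j : ℂ) := by
        rw [h1, Matrix.diagonal_mul_diagonal, Matrix.trace_diagonal]

/-- Quadratic term: `tr ((A a)ᴴ (a aᴴ + T0 + s) (A a)) = ∑ α_j² ξ_j (ξ_j + s + (E* T0 E)_{jj})`. -/
theorem tr_quad {a : Matrix d r ℂ} {E : Matrix d d ℂ} {xi : d → ℝ} (hE : star E * E = 1)
    (ha : a * aᴴ = E * diagonal (fun j => (xi j : ℂ)) * star E) (T0 : Matrix d d ℂ)
    (al : d → ℝ) (s : ℝ) :
    ((E * diagonal (fun j => (al j : ℂ)) * star E * a)ᴴ * (a * aᴴ + T0 + (s : ℂ) • 1)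
        * (E * diagonal (fun j => (al j : ℂ)) * star E * a)).trace
      = ∑ j, (al j : ℂ) ^ 2 * (xi j : ℂ) * ((xi j : ℂ) + (s : ℂ) + (star E * T0 * E) j j) := by
  have h1 := rot_gram hE ha
  have hN : star E * (a * aᴴ + T0 + (s : ℂ) • 1) * E
      = diagonal (fun j => (xi j : ℂ)) + star E * T0 * E + (s : ℂ) • 1 := by
    rw [Matrix.mul_add, Matrix.mul_add, Matrix.add_mul, Matrix.add_mul, ha, conj_cancel hE,
      Matrix.mul_smul, Matrix.mul_one, Matrix.smul_mul, hE]
  calc ((E * diagonal (fun j => (al j : ℂ)) * star E * a)ᴴ * (a * aᴴ + T0 + (s : ℂ) • 1)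
        * (E * diagonal (fun j => (al j : ℂ)) * star E * a)).trace
      = ((star E * a)ᴴ * (diagonal (fun j => (al j : ℂ))
          * (star E * (a * aᴴ + T0 + (s : ℂ) • 1) * E)
          * diagonal (fun j => (al j : ℂ)) * (star E * a))).trace := by
        rw [trialBlock_conjTranspose]
        rw [Matrix.conjTranspose_mul, Matrix.star_eq_conjTranspose,
          Matrix.conjTranspose_conjTranspose]
        simp only [Matrix.mul_assoc]
    _ = (diagonal (fun j => (al j : ℂ)) * (star E * (a * aᴴ + T0 + (s : ℂ) • 1) * E)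
          * diagonal (fun j => (al j : ℂ)) * ((star E * a) * (star E * a)ᴴ)).trace := by
        rw [Matrix.trace_mul_comm, Matrix.mul_assoc]
    _ = ∑ j, (al j : ℂ) ^ 2 * (xi j : ℂ) * ((xi j : ℂ) + (s : ℂ) + (star E * T0 * E) j j) := by
        rw [hN, h1, Matrix.trace]
        apply Finset.sum_congr rfl
        intro j _
        simp only [Matrix.diag_apply, Matrix.mul_diagonal, Matrix.diagonal_mul, Matrix.add_apply,
          Matrix.smul_apply, Matrix.diagonal_apply_eq, Matrix.one_apply_eq, smul_eq_mul, mul_one]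
        ring

/-- Cross term: `tr ((A a)ᴴ (a bᴴ) (B b)) = ∑_{j,k} α_j β_k |Z_{jk}|²`, `Z = E* a bᴴ F`. -/
theorem tr_cross (a b : Matrix d r ℂ) (E F : Matrix d d ℂ) (al be : d → ℝ) :
    ((E * diagonal (fun j => (al j : ℂ)) * star E * a)ᴴ * (a * bᴴ)
        * (F * diagonal (fun k => (be k : ℂ)) * star F * b)).trace
      = ∑ j, ∑ k, (al j : ℂ) * (be k : ℂ)
          * ((star E * a * bᴴ * F) j k * star ((star E * a * bᴴ * F) j k)) := by
  have hZ : (star E * a * bᴴ * F)ᴴ = star F * b * aᴴ * E := by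
    rw [Matrix.conjTranspose_mul, Matrix.conjTranspose_mul, Matrix.conjTranspose_mul,
      Matrix.conjTranspose_conjTranspose, Matrix.star_eq_conjTranspose,
      Matrix.star_eq_conjTranspose, Matrix.conjTranspose_conjTranspose]
    simp only [Matrix.mul_assoc]
  calc ((E * diagonal (fun j => (al j : ℂ)) * star E * a)ᴴ * (a * bᴴ)
        * (F * diagonal (fun k => (be k : ℂ)) * star F * b)).trace
      = ((aᴴ * E) * (diagonal (fun j => (al j : ℂ)) * (star E * a * bᴴ * F)
          * diagonal (fun k => (be k : ℂ)) * (star F * b))).trace := by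
        rw [trialBlock_conjTranspose]
        simp only [Matrix.mul_assoc]
    _ = (diagonal (fun j => (al j : ℂ)) * (star E * a * bᴴ * F)
          * diagonal (fun k => (be k : ℂ)) * (star E * a * bᴴ * F)ᴴ).trace := by
        rw [Matrix.trace_mul_comm, hZ]
        simp only [Matrix.mul_assoc]
    _ = ∑ j, ∑ k, (al j : ℂ) * (be k : ℂ)
          * ((star E * a * bᴴ * F) j k * star ((star E * a * bᴴ * F) j k)) := by
        rw [Matrix.trace]
        apply Finset.sum_congr rfl
        intro j _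
        rw [Matrix.diag_apply, Matrix.mul_apply]
        apply Finset.sum_congr rfl
        intro k _
        simp only [Matrix.mul_diagonal, Matrix.diagonal_mul, Matrix.conjTranspose_apply]
        ring

/-- The other cross term is the complex conjugate of the first one. -/
theorem tr_cross' (a b : Matrix d r ℂ) (E F : Matrix d d ℂ) (al be : d → ℝ) :
    ((F * diagonal (fun k => (be k : ℂ)) * star F * b)ᴴ * (b * aᴴ)
        * (E * diagonal (fun j => (al j : ℂ)) * star E * a)).trace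
      = star ((E * diagonal (fun j => (al j : ℂ)) * star E * a)ᴴ * (a * bᴴ)
        * (F * diagonal (fun k => (be k : ℂ)) * star F * b)).trace := by
  have h : ∀ (X Y : Matrix d r ℂ), Yᴴ * (b * aᴴ) * X = (Xᴴ * (a * bᴴ) * Y)ᴴ := by
    intro X Y
    rw [Matrix.conjTranspose_mul, Matrix.conjTranspose_mul, Matrix.conjTranspose_mul a,
      Matrix.conjTranspose_conjTranspose, Matrix.conjTranspose_conjTranspose]
    simp only [Matrix.mul_assoc]
  rw [h, Matrix.trace_conjTranspose]

/-- Real part of `∑ α_j ξ_j` (complex casts). -/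
theorem re_sum_lin (al xi : d → ℝ) :
    (∑ j, (al j : ℂ) * (xi j : ℂ)).re = ∑ j, al j * xi j := by
  rw [Complex.re_sum]
  apply Finset.sum_congr rfl
  intro j _
  rw [← Complex.ofReal_mul, Complex.ofReal_re]

/-- Real part of the quadratic sum. -/
theorem re_sum_quad (E T0 : Matrix d d ℂ) (al xi : d → ℝ) (s : ℝ) :
    (∑ j, (al j : ℂ) ^ 2 * (xi j : ℂ) * ((xi j : ℂ) + (s : ℂ) + (star E * T0 * E) j j)).re
      = ∑ j, al j ^ 2 * xi j * (xi j + s + Klein.diagIn E T0 j) := by
  rw [Complex.re_sum]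
  apply Finset.sum_congr rfl
  intro j _
  have h : (al j : ℂ) ^ 2 * (xi j : ℂ) = ((al j ^ 2 * xi j : ℝ) : ℂ) := by push_cast; ring
  rw [h, Complex.re_ofReal_mul, Complex.add_re, Complex.add_re, Complex.ofReal_re,
    Complex.ofReal_re]
  rfl

/-- Real part of the cross sum. -/
theorem re_sum_cross (Z : Matrix d d ℂ) (al be : d → ℝ) :
    (∑ j, ∑ k, (al j : ℂ) * (be k : ℂ) * (Z j k * star (Z j k))).re
      = ∑ j, ∑ k, al j * be k * Complex.normSq (Z j k) := by
  rw [Complex.re_sum]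
  apply Finset.sum_congr rfl
  intro j _
  rw [Complex.re_sum]
  apply Finset.sum_congr rfl
  intro k _
  have h : (al j : ℂ) * (be k : ℂ) = ((al j * be k : ℝ) : ℂ) := by push_cast; ring
  rw [h, Complex.re_ofReal_mul, Klein.re_mul_star_self]

end TrialValue

end TV

section Main

variable {d r : Type*} [Fintype d] [DecidableEq d] [Fintype r] [DecidableEq r]

/-- `κ_{jk} = |(E* a bᴴ F)_{jk}|² / (ξ_j υ_k)` (Lean convention `x / 0 = 0`). -/
noncomputable def kap (a b : Matrix d r ℂ) (E F : Matrix d d ℂ) (xi ups : d → ℝ) (j k : d) : ℝ :=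
  Complex.normSq ((star E * a * bᴴ * F) j k) / (xi j * ups k)

theorem kap_nonneg {a b : Matrix d r ℂ} {E F : Matrix d d ℂ} {xi ups : d → ℝ}
    (hE : star E * E = 1) (hF : star F * F = 1)
    (ha : a * aᴴ = E * diagonal (fun j => (xi j : ℂ)) * star E)
    (hb : b * bᴴ = F * diagonal (fun k => (ups k : ℂ)) * star F) (j k : d) :
    0 ≤ kap a b E F xi ups j k :=
  div_nonneg (Complex.normSq_nonneg _) (mul_nonneg (TV.eig_nonneg hE ha j) (TV.eig_nonneg hF hb k))

/-- The overlap vanishes when `ξ_j = 0` or `υ_k = 0`. -/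
theorem overlap_eq_zero {a b : Matrix d r ℂ} {E F : Matrix d d ℂ} {xi ups : d → ℝ}
    (hE : star E * E = 1) (hF : star F * F = 1)
    (ha : a * aᴴ = E * diagonal (fun j => (xi j : ℂ)) * star E)
    (hb : b * bᴴ = F * diagonal (fun k => (ups k : ℂ)) * star F) {j k : d}
    (h : xi j = 0 ∨ ups k = 0) : (star E * a * bᴴ * F) j k = 0 := by
  rw [TV.overlap_eq, Matrix.mul_apply]
  apply Finset.sum_eq_zero
  intro c _
  rcases h with h | h
  · rw [TV.rot_row_eq_zero hE ha h c, zero_mul]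
  · rw [Matrix.conjTranspose_apply, TV.rot_row_eq_zero hF hb h c, star_zero, mul_zero]

/-- `|(E* a bᴴ F)_{jk}|² = ξ_j υ_k κ_{jk}`. -/
theorem normSq_eq {a b : Matrix d r ℂ} {E F : Matrix d d ℂ} {xi ups : d → ℝ}
    (hE : star E * E = 1) (hF : star F * F = 1)
    (ha : a * aᴴ = E * diagonal (fun j => (xi j : ℂ)) * star E)
    (hb : b * bᴴ = F * diagonal (fun k => (ups k : ℂ)) * star F) (j k : d) :
    Complex.normSq ((star E * a * bᴴ * F) j k) = xi j * ups k * kap a b E F xi ups j k := by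
  by_cases h : xi j = 0 ∨ ups k = 0
  · rw [overlap_eq_zero hE hF ha hb h]
    rcases h with h | h <;> simp [h]
  · have h2 := not_or.mp h
    unfold kap
    have h' : xi j * ups k ≠ 0 := mul_ne_zero h2.1 h2.2
    have h3 := div_mul_cancel₀ (Complex.normSq ((star E * a * bᴴ * F) j k)) h'
    rw [mul_comm] at h3
    exact h3.symm

/-- Row sums of `κ` are at most `1` (Bessel). -/
theorem kap_row {a b : Matrix d r ℂ} {E F : Matrix d d ℂ} {xi ups : d → ℝ}
    (hE : star E * E = 1) (hF : star F * F = 1)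
    (ha : a * aᴴ = E * diagonal (fun j => (xi j : ℂ)) * star E)
    (hb : b * bᴴ = F * diagonal (fun k => (ups k : ℂ)) * star F) (j : d) :
    ∑ k, kap a b E F xi ups j k ≤ 1 := by
  by_cases hj : xi j = 0
  · have : ∀ k, kap a b E F xi ups j k = 0 := fun k => by simp [kap, hj]
    simp [this]
  · have hpos : 0 < xi j := lt_of_le_of_ne (TV.eig_nonneg hE ha j) (Ne.symm hj)
    have hB := TV.bessel (star E * a) (star F * b) ups (TV.rot_gram hF hb) j
    rw [TV.rot_gram hE ha, Matrix.diagonal_apply_eq, Complex.ofReal_re, ← TV.overlap_eq] at hB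
    have hsum : ∑ k, kap a b E F xi ups j k
        = (xi j)⁻¹ * ∑ k, (ups k)⁻¹ * Complex.normSq ((star E * a * bᴴ * F) j k) := by
      rw [Finset.mul_sum]
      apply Finset.sum_congr rfl
      intro k _
      unfold kap
      rw [div_eq_mul_inv, mul_inv]
      ring
    rw [hsum, inv_mul_le_iff₀ hpos, mul_one]
    exact hB

/-- Column sums of `κ` are at most `1` (Bessel). -/
theorem kap_col {a b : Matrix d r ℂ} {E F : Matrix d d ℂ} {xi ups : d → ℝ}
    (hE : star E * E = 1) (hF : star F * F = 1)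
    (ha : a * aᴴ = E * diagonal (fun j => (xi j : ℂ)) * star E)
    (hb : b * bᴴ = F * diagonal (fun k => (ups k : ℂ)) * star F) (k : d) :
    ∑ j, kap a b E F xi ups j k ≤ 1 := by
  by_cases hk : ups k = 0
  · have : ∀ j, kap a b E F xi ups j k = 0 := fun j => by simp [kap, hk]
    simp [this]
  · have hpos : 0 < ups k := lt_of_le_of_ne (TV.eig_nonneg hF hb k) (Ne.symm hk)
    have hB := TV.bessel (star F * b) (star E * a) xi (TV.rot_gram hE ha) k
    rw [TV.rot_gram hF hb, Matrix.diagonal_apply_eq, Complex.ofReal_re] at hB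
    have hentry : ∀ j, Complex.normSq (((star F * b) * (star E * a)ᴴ) k j)
        = Complex.normSq ((star E * a * bᴴ * F) j k) := by
      intro j
      have h1 : (star F * b) * (star E * a)ᴴ = ((star E * a) * (star F * b)ᴴ)ᴴ := by
        rw [Matrix.conjTranspose_mul ((star E * a)) ((star F * b)ᴴ),
          Matrix.conjTranspose_conjTranspose]
      rw [h1, Matrix.conjTranspose_apply, ← TV.overlap_eq, Complex.star_def, Complex.normSq_conj]
    have hsum : ∑ j, kap a b E F xi ups j k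
        = (ups k)⁻¹ * ∑ j, (xi j)⁻¹ * Complex.normSq (((star F * b) * (star E * a)ᴴ) k j) := by
      rw [Finset.mul_sum]
      apply Finset.sum_congr rfl
      intro j _
      rw [hentry j]
      unfold kap
      rw [div_eq_mul_inv, mul_inv]
      ring
    rw [hsum, inv_mul_le_iff₀ hpos, mul_one]
    exact hB

/-- **Trial value** (B3 of route 2).  For the trial function
`Φ = (E diag(α) E* a ; F diag(β) F* b)` and `M = [[a aᴴ + T0, a bᴴ], [b aᴴ, b bᴴ + T1]]`,
`Γ = (a ; b)`:
`2 Re tr(Γᴴ Φ) - Re tr(Φᴴ (M + s) Φ)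
  = 2 ∑ α_j ξ_j + 2 ∑ β_k υ_k - ∑ α_j² ξ_j (ξ_j + s + P_j) - ∑ β_k² υ_k (υ_k + s + Q_k)
    - 2 ∑_{j,k} α_j β_k ξ_j υ_k κ_{jk}`. -/
theorem trial_value {a b : Matrix d r ℂ} {E F : Matrix d d ℂ} {xi ups : d → ℝ}
    (hE : star E * E = 1) (hF : star F * F = 1)
    (ha : a * aᴴ = E * diagonal (fun j => (xi j : ℂ)) * star E)
    (hb : b * bᴴ = F * diagonal (fun k => (ups k : ℂ)) * star F)
    (T0 T1 : Matrix d d ℂ) (al be : d → ℝ) (s : ℝ) :
    2 * ((Matrix.fromRows a b)ᴴ *
          Matrix.fromRows (E * diagonal (fun j => (al j : ℂ)) * star E * a)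
            (F * diagonal (fun k => (be k : ℂ)) * star F * b)).trace.re
      - ((Matrix.fromRows (E * diagonal (fun j => (al j : ℂ)) * star E * a)
            (F * diagonal (fun k => (be k : ℂ)) * star F * b))ᴴ *
          (Matrix.fromBlocks (a * aᴴ + T0) (a * bᴴ) (b * aᴴ) (b * bᴴ + T1) + (s : ℂ) • 1) *
          Matrix.fromRows (E * diagonal (fun j => (al j : ℂ)) * star E * a)
            (F * diagonal (fun k => (be k : ℂ)) * star F * b)).trace.re
    = 2 * ∑ j, al j * xi j + 2 * ∑ k, be k * ups k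
      - ∑ j, al j ^ 2 * xi j * (xi j + s + Klein.diagIn E T0 j)
      - ∑ k, be k ^ 2 * ups k * (ups k + s + Klein.diagIn F T1 k)
      - 2 * ∑ j, ∑ k, al j * be k * (xi j * ups k * kap a b E F xi ups j k) := by
  generalize hΦA : E * diagonal (fun j => (al j : ℂ)) * star E * a = ΦA
  generalize hΦB : F * diagonal (fun k => (be k : ℂ)) * star F * b = ΦB
  have hG : (Matrix.fromRows a b)ᴴ * Matrix.fromRows ΦA ΦB = aᴴ * ΦA + bᴴ * ΦB := by
    rw [Matrix.conjTranspose_fromRows_eq_fromCols_conjTranspose, Matrix.fromCols_mul_fromRows]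
  have hM : Matrix.fromBlocks (a * aᴴ + T0) (a * bᴴ) (b * aᴴ) (b * bᴴ + T1) + (s : ℂ) • 1
      = Matrix.fromBlocks (a * aᴴ + T0 + (s : ℂ) • 1) (a * bᴴ) (b * aᴴ)
          (b * bᴴ + T1 + (s : ℂ) • 1) := by
    rw [← Matrix.fromBlocks_one, Matrix.fromBlocks_smul, Matrix.fromBlocks_add]
    simp
  have hQ : (Matrix.fromRows ΦA ΦB)ᴴ *
        Matrix.fromBlocks (a * aᴴ + T0 + (s : ℂ) • 1) (a * bᴴ) (b * aᴴ)
          (b * bᴴ + T1 + (s : ℂ) • 1) * Matrix.fromRows ΦA ΦB
      = ΦAᴴ * (a * aᴴ + T0 + (s : ℂ) • 1) * ΦA + ΦBᴴ * (b * aᴴ) * ΦA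
        + (ΦAᴴ * (a * bᴴ) * ΦB + ΦBᴴ * (b * bᴴ + T1 + (s : ℂ) • 1) * ΦB) := by
    rw [Matrix.conjTranspose_fromRows_eq_fromCols_conjTranspose, Matrix.fromCols_mul_fromBlocks,
      Matrix.fromCols_mul_fromRows, Matrix.add_mul, Matrix.add_mul]
  rw [hG, hM, hQ]
  simp only [Matrix.trace_add, Complex.add_re]
  subst hΦA hΦB
  have hstar : ∀ z : ℂ, (star z).re = z.re := fun z => Complex.conj_re z
  rw [TV.tr_lin hE ha al, TV.tr_lin hF hb be, TV.tr_quad hE ha T0 al s, TV.tr_quad hF hb T1 be s,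
    TV.tr_cross' a b E F al be, hstar, TV.tr_cross a b E F al be]
  rw [TV.re_sum_lin, TV.re_sum_lin, TV.re_sum_quad, TV.re_sum_quad, TV.re_sum_cross]
  have hk : ∑ j, ∑ k, al j * be k * Complex.normSq ((star E * a * bᴴ * F) j k)
      = ∑ j, ∑ k, al j * be k * (xi j * ups k * kap a b E F xi ups j k) := by
    apply Finset.sum_congr rfl
    intro j _
    apply Finset.sum_congr rfl
    intro k _
    rw [normSq_eq hE hF ha hb j k]
  rw [hk]
  ring

/-- **The hypothesis `htrial` of `classical_der2`** (B2 + B3 in `κ` form).  With explicit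
eigen-data `M = [[a aᴴ + T0, a bᴴ], [b aᴴ, b bᴴ + T1]] = V diag(μ) V*`, for every `s` with
`μ i + s > 0` and all real `α β` the trial value is a lower bound for
`R(s) = ∑ i, ⟨v_i, M0 v_i⟩ / (μ i + s)`, `M0 = [[a aᴴ, a bᴴ], [b aᴴ, b bᴴ]]`. -/
theorem trial_kap_bound {a b : Matrix d r ℂ} {E F : Matrix d d ℂ} {xi ups : d → ℝ}
    (hE : star E * E = 1) (hF : star F * F = 1)
    (ha : a * aᴴ = E * diagonal (fun j => (xi j : ℂ)) * star E)
    (hb : b * bᴴ = F * diagonal (fun k => (ups k : ℂ)) * star F)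
    (T0 T1 : Matrix d d ℂ)
    {V : Matrix (d ⊕ d) (d ⊕ d) ℂ} {μ : d ⊕ d → ℝ} (hV : star V * V = 1)
    (hM : Matrix.fromBlocks (a * aᴴ + T0) (a * bᴴ) (b * aᴴ) (b * bᴴ + T1)
      = V * diagonal (fun i => (μ i : ℂ)) * star V)
    (s : ℝ) (hs : ∀ i, 0 < μ i + s) (al be : d → ℝ) :
    2 * ∑ j, al j * xi j + 2 * ∑ k, be k * ups k
      - ∑ j, al j ^ 2 * xi j * (xi j + s + Klein.diagIn E T0 j)
      - ∑ k, be k ^ 2 * ups k * (ups k + s + Klein.diagIn F T1 k)
      - 2 * ∑ j, ∑ k, al j * be k * (xi j * ups k * kap a b E F xi ups j k)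
    ≤ ∑ i, Klein.diagIn V (Matrix.fromBlocks (a * aᴴ) (a * bᴴ) (b * aᴴ) (b * bᴴ)) i
        / (μ i + s) := by
  rw [← trial_value hE hF ha hb T0 T1 al be s, ← stack_mul_conjTranspose]
  exact resolvent_bound (Matrix.fromRows a b) _ _ V μ hV hM s hs

/-- `htrial` in exactly the shape consumed by `classical_der2` (`μ > 0`, all `s > 0`). -/
theorem trial_kap_bound' {a b : Matrix d r ℂ} {E F : Matrix d d ℂ} {xi ups : d → ℝ}
    (hE : star E * E = 1) (hF : star F * F = 1)
    (ha : a * aᴴ = E * diagonal (fun j => (xi j : ℂ)) * star E)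
    (hb : b * bᴴ = F * diagonal (fun k => (ups k : ℂ)) * star F)
    (T0 T1 : Matrix d d ℂ)
    {V : Matrix (d ⊕ d) (d ⊕ d) ℂ} {μ : d ⊕ d → ℝ} (hV : star V * V = 1)
    (hM : Matrix.fromBlocks (a * aᴴ + T0) (a * bᴴ) (b * aᴴ) (b * bᴴ + T1)
      = V * diagonal (fun i => (μ i : ℂ)) * star V)
    (hμ : ∀ i, 0 < μ i) :
    ∀ s : ℝ, 0 < s → ∀ (al be : d → ℝ),
      2 * ∑ j, al j * xi j + 2 * ∑ k, be k * ups k
        - ∑ j, al j ^ 2 * xi j * (xi j + s + Klein.diagIn E T0 j)
        - ∑ k, be k ^ 2 * ups k * (ups k + s + Klein.diagIn F T1 k)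
        - 2 * ∑ j, ∑ k, al j * be k * (xi j * ups k * kap a b E F xi ups j k)
      ≤ ∑ i, Klein.diagIn V (Matrix.fromBlocks (a * aᴴ) (a * bᴴ) (b * aᴴ) (b * bᴴ)) i
          / (μ i + s) :=
  fun s hs al be =>
    trial_kap_bound hE hF ha hb T0 T1 hV hM s (fun i => add_pos (hμ i) hs) al be

end Main

end Crest.Agent.GAD.Trial
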